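import Vale.Agent.P071.H592.Val

set_option linter.all false

/-!
# The resolvent of a tight domain is compact
-/

open MeasureTheory Metric Filter Topology
open scoped ContDiff

namespace Vale.Agent.P071.NF

open Vale.Agent.P071.Lim Vale.Agent.P071.Lim.Mol Vale.Agent.P071.Reg.Int1

variable {Ω : Set ℂ}

/-! ### Density of `C¹` functions -/

/-- the class has a `C¹` version with the classical gradient -/
def IsC1 (x : W Ω) : Prop :=
  ∃ v : ℂ → ℝ, ContDiffOn ℝ 1 v Ω ∧ ((x : E3 Ω) 0 : ℂ → ℝ) =ᵐ[volume.restrict Ω] v ∧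
    ((x : E3 Ω) 1 : ℂ → ℝ) =ᵐ[volume.restrict Ω] px v ∧
    ((x : E3 Ω) 2 : ℂ → ℝ) =ᵐ[volume.restrict Ω] py v

theorem pd_lin (ho : IsOpen Ω) {v w : ℂ → ℝ} (hv : ContDiffOn ℝ 1 v Ω) (hw : ContDiffOn ℝ 1 w Ω)
    (a b : ℝ) (e : ℂ) {z : ℂ} (hz : z ∈ Ω) :
    fderiv ℝ (fun y => a * v y + b * w y) z e = a * fderiv ℝ v z e + b * fderiv ℝ w z e := by
  have h1 : DifferentiableAt ℝ v z :=
    (hv.differentiableOn (by norm_num)).differentiableAt (ho.mem_nhds hz)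
  have h2 : DifferentiableAt ℝ w z :=
    (hw.differentiableOn (by norm_num)).differentiableAt (ho.mem_nhds hz)
  have h3 := ((h1.hasFDerivAt.const_mul a).add (h2.hasFDerivAt.const_mul b)).fderiv
  have h4 : fderiv ℝ (fun y => a * v y + b * w y) z = a • fderiv ℝ v z + b • fderiv ℝ w z := h3
  rw [h4]
  rfl

theorem IsC1.lin (ho : IsOpen Ω) {x y : W Ω} (hx : IsC1 x) (hy : IsC1 y) (a b : ℝ) :
    IsC1 (a • x + b • y) := by
  obtain ⟨v, h1, h2, h3, h4⟩ := hx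
  obtain ⟨w, k1, k2, k3, k4⟩ := hy
  have hc : ∀ i : Fin 3, (((a • x + b • y : W Ω) : E3 Ω) i : ℂ → ℝ) =ᵐ[volume.restrict Ω]
      fun z => a * ((x : E3 Ω) i) z + b * ((y : E3 Ω) i) z := by
    intro i
    have e1 : ((a • x + b • y : W Ω) : E3 Ω) i = a • (x : E3 Ω) i + b • (y : E3 Ω) i := rfl
    rw [e1]
    filter_upwards [Lp.coeFn_add (a • (x : E3 Ω) i) (b • (y : E3 Ω) i),
      Lp.coeFn_smul a ((x : E3 Ω) i), Lp.coeFn_smul b ((y : E3 Ω) i)] with z q1 q2 q3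
    rw [q1, Pi.add_apply, q2, q3]
    rfl
  refine ⟨fun z => a * v z + b * w z, (contDiffOn_const.mul h1).add (contDiffOn_const.mul k1),
    ?_, ?_, ?_⟩
  · filter_upwards [hc 0, h2, k2] with z q1 q2 q3
    rw [q1, q2, q3]
  · filter_upwards [hc 1, h3, k3, ae_restrict_mem ho.measurableSet] with z q1 q2 q3 q4
    rw [q1, q2, q3]
    exact (pd_lin ho h1 k1 a b 1 q4).symm
  · filter_upwards [hc 2, h4, k4, ae_restrict_mem ho.measurableSet] with z q1 q2 q3 q4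
    rw [q1, q2, q3]
    exact (pd_lin ho h1 k1 a b Complex.I q4).symm

theorem IsC1.zero : IsC1 (0 : W Ω) := by
  have h0 : ∀ i : Fin 3, (((0 : W Ω) : E3 Ω) i : ℂ → ℝ) =ᵐ[volume.restrict Ω] fun _ => (0 : ℝ) :=
    fun i => Lp.coeFn_zero ℝ 2 (volume.restrict Ω)
  refine ⟨fun _ => 0, contDiffOn_const, h0 0, ?_, ?_⟩
  · refine (h0 1).trans (Eventually.of_forall fun z => ?_)
    unfold px; simp
  · refine (h0 2).trans (Eventually.of_forall fun z => ?_)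
    unfold py; simp

/-- the subspace of `C¹` functions of `H¹(Ω)` -/
noncomputable def D (ho : IsOpen Ω) : Submodule ℝ (W Ω) where
  carrier := {x | IsC1 x}
  add_mem' := by
    intro x y hx hy
    have := IsC1.lin ho hx hy 1 1
    rwa [one_smul, one_smul] at this
  zero_mem' := IsC1.zero
  smul_mem' := by
    intro c x hx
    have := IsC1.lin ho hx IsC1.zero c 0
    rwa [smul_zero, add_zero] at this

/-- a test function as an element of `H¹(Ω)` -/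
theorem tst_isH1 {φ : ℂ → ℝ} (h : Tst Ω φ) (ho : IsOpen Ω) : IsH1 Ω φ (px φ) (py φ) := by
  have := isH1_of_c1 ho (v := φ) ((contDiff_infty.1 h.1 1).contDiffOn)
    h.memLp.integrable_sq (h.px.memLp.integrable_sq.add h.py.memLp.integrable_sq)
  exact this

theorem tst_isC1 {φ : ℂ → ℝ} (h : Tst Ω φ) (ho : IsOpen Ω) :
    IsC1 (⟨_, mem_of_isH1 (tst_isH1 h ho)⟩ : W Ω) :=
  ⟨φ, (contDiff_infty.1 h.1 1).contDiffOn, tl_ae h.memLp, tl_ae h.px.memLp, tl_ae h.py.memLp⟩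

theorem D_orth (ho : IsOpen Ω) : (D ho)ᗮ = ⊥ := by
  rw [eq_bot_iff]
  intro z hz
  have hz' := (Submodule.mem_orthogonal _ _).1 hz
  have hH := isH1_of_mem z.2
  have hweak : ∀ φ : ℂ → ℝ, ContDiff ℝ ∞ φ → HasCompactSupport φ → tsupport φ ⊆ Ω →
      ∫ y in Ω, (((z : E3 Ω) 1) y * px φ y + ((z : E3 Ω) 2) y * py φ y) =
        (-1) * ∫ y in Ω, ((z : E3 Ω) 0) y * φ y := by
    intro φ h1 h2 h3
    have hφ : Tst Ω φ := ⟨h1, h2, h3⟩
    have h4 := hz' _ (tst_isC1 hφ ho)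
    have h5 : inner ℝ (mk3 (tl Ω φ) (tl Ω (px φ)) (tl Ω (py φ))) (z : E3 Ω) = 0 := h4
    rw [inner3, mk3_0, mk3_1, mk3_2, inner_tl_left hφ.memLp, inner_tl_left hφ.px.memLp,
      inner_tl_left hφ.py.memLp] at h5
    have i1 : IntegrableOn (fun y => ((z : E3 Ω) 1) y * px φ y) Ω :=
      hH.gx_mem.integrable_mul hφ.px.memLp
    have i2 : IntegrableOn (fun y => ((z : E3 Ω) 2) y * py φ y) Ω :=
      hH.gy_mem.integrable_mul hφ.py.memLp
    rw [integral_add i1 i2]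
    have e1 : ∫ y in Ω, ((z : E3 Ω) 1) y * px φ y = ∫ y in Ω, px φ y * ((z : E3 Ω) 1) y := by
      simp_rw [mul_comm]
    have e2 : ∫ y in Ω, ((z : E3 Ω) 2) y * py φ y = ∫ y in Ω, py φ y * ((z : E3 Ω) 2) y := by
      simp_rw [mul_comm]
    have e3 : ∫ y in Ω, ((z : E3 Ω) 0) y * φ y = ∫ y in Ω, φ y * ((z : E3 Ω) 0) y := by
      simp_rw [mul_comm]
    rw [e1, e2, e3]
    linarith
  obtain ⟨w, hwc, hwu⟩ := Reg.exists_continuous_version ho hH (μ := -1) hweak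
  have hHw : IsH1 Ω w ((z : E3 Ω) 1) ((z : E3 Ω) 2) := Reg.IsH1.congr hH hwu
  have hweak' : ∀ φ : ℂ → ℝ, ContDiff ℝ ∞ φ → HasCompactSupport φ → tsupport φ ⊆ Ω →
      ∫ y in Ω, (((z : E3 Ω) 1) y * px φ y + ((z : E3 Ω) 2) y * py φ y) =
        (-1) * ∫ y in Ω, w y * φ y := by
    intro φ h1 h2 h3
    rw [hweak φ h1 h2 h3]
    congr 1
    refine integral_congr_ae (hwu.mono fun y hy => ?_)
    simp only
    rw [hy]
  obtain ⟨hC2, -, hgr⟩ := Lim.reg_H1 ho hHw hwc hweak'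
  have hzD : z ∈ D ho := ⟨w, hC2.of_le (by norm_num), hwu.mono fun y hy => hy.symm,
    hgr.mono fun y hy => hy.1, hgr.mono fun y hy => hy.2⟩
  have h0 := hz' z hzD
  rw [inner_self_eq_zero] at h0
  rw [h0]
  exact Submodule.zero_mem _

theorem D_dense (ho : IsOpen Ω) : Dense ((D ho : Submodule ℝ (W Ω)) : Set (W Ω)) := by
  rw [Submodule.dense_iff_topologicalClosure_eq_top, Submodule.topologicalClosure_eq_top_iff]
  exact D_orth ho

/-! ### Tails -/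

/-- `∫_S f²` -/
theorem restrict_sq (f : L2 Ω) (S : Set ℂ) :
    ∫ z in S, (f z) ^ 2 ∂(volume.restrict Ω) =
      ‖LpToLpRestrictCLM ℂ ℝ ℝ (volume.restrict Ω) 2 S f‖ ^ 2 := by
  rw [← real_inner_self_eq_norm_sq, L2.inner_def]
  refine integral_congr_ae ?_
  filter_upwards [LpToLpRestrictCLM_coeFn ℝ S f] with z hz
  rw [hz]
  simp [sq]

theorem norm_sq_L2 (f : L2 Ω) : ‖f‖ ^ 2 = ∫ z in Ω, (f z) ^ 2 := by
  rw [← real_inner_self_eq_norm_sq, inner_L2]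
  refine integral_congr_ae (Eventually.of_forall fun z => ?_)
  simp only
  ring

/-- Tightness extends to all of `H¹(Ω)`. -/
theorem tight_W (ho : IsOpen Ω) (hT : Tight Ω) {δ : ℝ} (hδ : 0 < δ) :
    ∃ K : Set ℂ, IsCompact K ∧ K ⊆ Ω ∧ ∀ x : W Ω,
      ∫ z in Kᶜ, ((x : E3 Ω) 0 z) ^ 2 ∂(volume.restrict Ω) ≤ δ * ‖x‖ ^ 2 := by
  obtain ⟨K, hK, hKΩ, h⟩ := hT δ hδ
  refine ⟨K, hK, hKΩ, fun x => ?_⟩
  have hclosed : IsClosed {x : W Ω | ∫ z in Kᶜ, ((x : E3 Ω) 0 z) ^ 2 ∂(volume.restrict Ω) ≤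
      δ * ‖x‖ ^ 2} := by
    have h1 : ∀ x : W Ω, ∫ z in Kᶜ, ((x : E3 Ω) 0 z) ^ 2 ∂(volume.restrict Ω) =
        ‖LpToLpRestrictCLM ℂ ℝ ℝ (volume.restrict Ω) 2 Kᶜ (J Ω x)‖ ^ 2 := fun x =>
      restrict_sq _ _
    simp only [h1]
    refine isClosed_le ?_ ?_
    · exact ((ContinuousLinearMap.continuous _).comp (J Ω).continuous).norm.pow 2
    · exact continuous_const.mul (continuous_norm.pow 2)
  have hD : ∀ x ∈ (D ho : Submodule ℝ (W Ω)), x ∈ {x : W Ω |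
      ∫ z in Kᶜ, ((x : E3 Ω) 0 z) ^ 2 ∂(volume.restrict Ω) ≤ δ * ‖x‖ ^ 2} := by
    rintro x ⟨v, h1, h2, h3, h4⟩
    have hH := isH1_of_mem x.2
    have hv2 : IntegrableOn (fun z => v z ^ 2) Ω := (hH.v_mem.ae_eq h2).integrable_sq
    have hg2 : IntegrableOn (gsq v) Ω :=
      ((hH.gx_mem.ae_eq h3).integrable_sq).add ((hH.gy_mem.ae_eq h4).integrable_sq)
    have h5 := h v h1 hv2 hg2
    show ∫ z in Kᶜ, ((x : E3 Ω) 0 z) ^ 2 ∂(volume.restrict Ω) ≤ δ * ‖x‖ ^ 2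
    have e1 : ∫ z in Kᶜ, ((x : E3 Ω) 0 z) ^ 2 ∂(volume.restrict Ω) = ∫ z in Ω \ K, v z ^ 2 := by
      have e0 : Ω \ K = Kᶜ ∩ Ω := by rw [Set.inter_comm]; rfl
      rw [e0, ← Measure.restrict_restrict hK.measurableSet.compl]
      refine integral_congr_ae ?_
      filter_upwards [ae_restrict_of_ae h2] with z hz
      rw [hz]
    have e2 : ‖x‖ ^ 2 = ∫ z in Ω, (v z ^ 2 + gsq v z) := by
      have e3 : ‖x‖ ^ 2 = inner ℝ (x : E3 Ω) (x : E3 Ω) := by
        rw [real_inner_self_eq_norm_sq]; rfl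
      rw [e3, inner3, inner_L2, inner_L2, inner_L2, integral_add hv2 hg2]
      unfold gsq
      have i1 : IntegrableOn (fun z => px v z ^ 2) Ω := (hH.gx_mem.ae_eq h3).integrable_sq
      have i2 : IntegrableOn (fun z => py v z ^ 2) Ω := (hH.gy_mem.ae_eq h4).integrable_sq
      rw [integral_add i1 i2, add_assoc]
      congr 1
      · refine integral_congr_ae ?_
        filter_upwards [h2] with z hz
        rw [hz, sq]
      · congr 1
        · refine integral_congr_ae ?_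
          filter_upwards [h3] with z hz
          rw [hz, sq]
        · refine integral_congr_ae ?_
          filter_upwards [h4] with z hz
          rw [hz, sq]
    rw [e1, e2]
    exact h5
  have hcl := hclosed.closure_subset_iff.2 hD
  exact hcl (D_dense ho x)

end Vale.Agent.P071.NF
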