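import Vale.Agent.P071.H592.Comp

set_option linter.all false

/-!
# The resolvent of a tight domain is compact (end)
-/

open MeasureTheory Metric Filter Topology
open scoped ContDiff

namespace Vale.Agent.P071.NF

open Vale.Agent.P071.Lim Vale.Agent.P071.Lim.Mol Vale.Agent.P071.Reg.Int1

variable {Ω : Set ℂ}

theorem bessel_le {H : Type*} [NormedAddCommGroup H] [InnerProductSpace ℝ H] (l : H →L[ℝ] ℝ)
    {C : ℝ} (hC : 0 ≤ C) (h : ∀ g, l g ^ 2 ≤ C * ‖g‖ ^ 2) {n : ℕ} {f : Fin n → H}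
    (hf : Orthonormal ℝ f) : ∑ j, l (f j) ^ 2 ≤ C := by
  set s := ∑ j, l (f j) ^ 2 with hs
  have h1 : l (∑ j, l (f j) • f j) = s := by
    rw [map_sum]
    refine Finset.sum_congr rfl fun j _ => ?_
    rw [map_smul, smul_eq_mul, sq]
  have h2 : ‖∑ j, l (f j) • f j‖ ^ 2 = s := by
    rw [← real_inner_self_eq_norm_sq, hf.inner_sum]
    refine Finset.sum_congr rfl fun j _ => ?_
    simp [sq]
  have h3 := h (∑ j, l (f j) • f j)
  rw [h1, h2] at h3
  have hs0 : 0 ≤ s := Finset.sum_nonneg fun j _ => sq_nonneg _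
  by_cases h0 : s = 0
  · rw [h0]; exact hC
  · have : 0 < s := lt_of_le_of_ne hs0 (Ne.symm h0)
    nlinarith

theorem ker_memLp (m : ℕ) (x : ℂ) : MemLp (fun y => Mol.ker m (x - y)) 2 (volume.restrict Ω) :=
  ((ker_sub_contDiff m x).continuous.memLp_of_hasCompactSupport (ker_sub_cs m x)).restrict Ω

theorem moll_eq_inner (ho : IsOpen Ω) (m : ℕ) (x : ℂ) (f : L2 Ω) :
    moll m (Ω.indicator f) x = inner ℝ (tl Ω (fun y => Mol.ker m (x - y))) f := by
  rw [inner_tl_left (ker_memLp m x)]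
  unfold moll
  rw [← integral_indicator ho.measurableSet]
  congr 1
  funext y
  by_cases hy : y ∈ Ω <;> simp [hy]

theorem norm_R_le (g : L2 Ω) : ‖R Ω g‖ ^ 2 ≤ ‖g‖ ^ 2 := by
  have h1 : ‖R Ω g‖ ^ 2 = inner ℝ g (T Ω g) := by
    rw [← real_inner_self_eq_norm_sq]
    exact inner_R g (R Ω g)
  rw [h1]
  have h2 : inner ℝ g (T Ω g) ≤ ‖g‖ * ‖T Ω g‖ := real_inner_le_norm _ _
  have h3 := mul_le_mul_of_nonneg_left (norm_T_le g) (norm_nonneg g)
  rw [sq]
  exact h2.trans h3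

theorem norm_sq_W (x : W Ω) : ‖x‖ ^ 2 = ‖(x : E3 Ω) 0‖ ^ 2 + ‖(x : E3 Ω) 1‖ ^ 2 +
    ‖(x : E3 Ω) 2‖ ^ 2 := by
  have e3 : ‖x‖ ^ 2 = inner ℝ (x : E3 Ω) (x : E3 Ω) := by
    rw [real_inner_self_eq_norm_sq]; rfl
  rw [e3, inner3, real_inner_self_eq_norm_sq, real_inner_self_eq_norm_sq,
    real_inner_self_eq_norm_sq]

theorem weq_of (ho : IsOpen Ω) {x : W Ω} {g : L2 Ω}
    (h : ∀ y : W Ω, inner ℝ ((x : E3 Ω) 1) ((y : E3 Ω) 1) +
      inner ℝ ((x : E3 Ω) 2) ((y : E3 Ω) 2) = inner ℝ g ((y : E3 Ω) 0)) :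
    WEq Ω ((x : E3 Ω) 1) ((x : E3 Ω) 2) g := by
  intro φ h1 h2 h3
  have hφ : Tst Ω φ := ⟨h1, h2, h3⟩
  have hH := isH1_of_mem x.2
  have h4 := h ⟨_, mem_of_isH1 (tst_isH1 hφ ho)⟩
  simp only [mk3_0, mk3_1, mk3_2] at h4
  rw [inner_tl_right hφ.memLp, inner_tl_right hφ.px.memLp, inner_tl_right hφ.py.memLp] at h4
  have i1 : IntegrableOn (fun y => ((x : E3 Ω) 1) y * px φ y) Ω :=
    hH.gx_mem.integrable_mul hφ.px.memLp
  have i2 : IntegrableOn (fun y => ((x : E3 Ω) 2) y * py φ y) Ω :=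
    hH.gy_mem.integrable_mul hφ.py.memLp
  rw [integral_add i1 i2]
  exact h4

theorem ev_bound (ho : IsOpen Ω) {K : Set ℂ} (hK : IsCompact K) (hKΩ : K ⊆ Ω) :
    ∃ (C : ℝ) (N : ℕ), 0 ≤ C ∧ ∀ n : ℕ, N ≤ n → ∀ x ∈ K, ∀ g : L2 Ω,
      moll n (Ω.indicator (T Ω g)) x ^ 2 ≤ C * ‖g‖ ^ 2 := by
  obtain ⟨C, N, hC, h⟩ := val ho hK hKΩ
  refine ⟨C * 5, N, by positivity, fun n hn x hx g => ?_⟩
  have hw := weq_of ho (weak_R g)
  have h1 := h n hn x hx _ _ _ _ (isH1_of_mem (R Ω g).2) (Lp.memLp _) hw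
  refine h1.trans ?_
  rw [← norm_sq_L2, ← norm_sq_L2, ← norm_sq_L2, ← norm_sq_L2, mul_assoc]
  refine mul_le_mul_of_nonneg_left ?_ hC
  have h2 := norm_R_le g
  rw [norm_sq_W] at h2
  have h3 : ‖g - T Ω g‖ ^ 2 ≤ 4 * ‖g‖ ^ 2 := by
    have h4 : ‖g - T Ω g‖ ≤ 2 * ‖g‖ := (norm_sub_le _ _).trans (by linarith [norm_T_le g])
    have := pow_le_pow_left₀ (norm_nonneg _) h4 2
    nlinarith
  linarith

/-- **The resolvent of the Neumann Laplacian of a tight domain is compact.** -/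
theorem T_compact (ho : IsOpen Ω) (hb : Bornology.IsBounded Ω) (hT : Tight Ω) :
    IsCompactOperator (T Ω) := by
  refine compact_of_hs (T Ω) fun ε hε => ?_
  obtain ⟨K, hK, hKΩ, htail⟩ := tight_W ho hT hε
  obtain ⟨C, N, hC, hev⟩ := ev_bound ho hK hKΩ
  have hmK : MeasurableSet K := hK.measurableSet
  refine ⟨fun g => ∫ z in K, (T Ω g z) ^ 2 ∂(volume.restrict Ω),
    2 * (C * (volume K).toReal) + 1, fun g => ?_, fun n f hf => ?_⟩
  · have h1 : ‖T Ω g‖ ^ 2 = (∫ z in K, (T Ω g z) ^ 2 ∂(volume.restrict Ω)) +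
        ∫ z in Kᶜ, (T Ω g z) ^ 2 ∂(volume.restrict Ω) := by
      rw [norm_sq_L2, integral_add_compl hmK (Lp.memLp (T Ω g)).integrable_sq]
    have h2 := htail (R Ω g)
    have h3 := mul_le_mul_of_nonneg_left (norm_R_le g) hε.le
    rw [h1]
    have h4 : ∫ z in Kᶜ, (T Ω g z) ^ 2 ∂(volume.restrict Ω) ≤ ε * ‖g‖ ^ 2 := h2.trans h3
    linarith
  · -- the error of the mollification
    have herr : Tendsto (fun m => ∑ j, ∫ z, (moll m (Ω.indicator (T Ω (f j))) z -
        Ω.indicator (T Ω (f j)) z) ^ 2) atTop (𝓝 0) := by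
      have : Tendsto (fun m => ∑ j : Fin n, ∫ z, (moll m (Ω.indicator (T Ω (f j))) z -
        Ω.indicator (T Ω (f j)) z) ^ 2) atTop (𝓝 (∑ _j : Fin n, (0 : ℝ))) :=
        tendsto_finset_sum _ fun j _ => conv_sq
          ((memLp_indicator_iff_restrict ho.measurableSet).2 (Lp.memLp (T Ω (f j))))
      simpa using this
    obtain ⟨m, hm1, hm2⟩ := ((herr.eventually (gt_mem_nhds (show (0 : ℝ) < 1 / 2 by norm_num))).and
      (eventually_ge_atTop N)).exists
    have hpt : ∀ x ∈ K, ∑ j, moll m (Ω.indicator (T Ω (f j))) x ^ 2 ≤ C := by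
      intro x hx
      have hl := bessel_le (((innerSL ℝ) (tl Ω (fun y => Mol.ker m (x - y)))).comp (T Ω)) hC
        (fun g => by
          have := hev m hm2 x hx g
          rw [moll_eq_inner ho] at this
          exact this) hf
      refine le_trans (le_of_eq ?_) hl
      refine Finset.sum_congr rfl fun j _ => ?_
      rw [moll_eq_inner ho]
      rfl
    have hmem : ∀ j, MemLp (Ω.indicator (T Ω (f j))) 2 volume := fun j =>
      (memLp_indicator_iff_restrict ho.measurableSet).2 (Lp.memLp (T Ω (f j)))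
    have i1 : ∀ j, IntegrableOn (fun z => moll m (Ω.indicator (T Ω (f j))) z ^ 2) K := fun j =>
      (moll_memLp m (hmem j)).integrable_sq.integrableOn
    have i2 : ∀ j, Integrable (fun z => (moll m (Ω.indicator (T Ω (f j))) z -
        Ω.indicator (T Ω (f j)) z) ^ 2) := fun j => sq_int (hmem j) m
    have hone : ∀ j, ∫ z in K, (T Ω (f j) z) ^ 2 ∂(volume.restrict Ω) ≤
        2 * (∫ z in K, moll m (Ω.indicator (T Ω (f j))) z ^ 2) +
          2 * ∫ z, (moll m (Ω.indicator (T Ω (f j))) z - Ω.indicator (T Ω (f j)) z) ^ 2 := by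
      intro j
      have e1 : ∫ z in K, (T Ω (f j) z) ^ 2 ∂(volume.restrict Ω) =
          ∫ z in K, (Ω.indicator (T Ω (f j)) z) ^ 2 := by
        rw [Measure.restrict_restrict hmK, Set.inter_eq_left.2 hKΩ]
        refine setIntegral_congr_fun hmK fun z hz => ?_
        rw [Set.indicator_of_mem (hKΩ hz)]
      rw [e1]
      have e2 : ∫ z in K, (Ω.indicator (T Ω (f j)) z) ^ 2 ≤
          ∫ z in K, (2 * moll m (Ω.indicator (T Ω (f j))) z ^ 2 +
            2 * (moll m (Ω.indicator (T Ω (f j))) z - Ω.indicator (T Ω (f j)) z) ^ 2) := by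
        refine setIntegral_mono ((hmem j).integrable_sq.integrableOn)
          (((i1 j).const_mul 2).add (((i2 j).integrableOn).const_mul 2)) fun z => ?_
        show (Ω.indicator (T Ω (f j)) z) ^ 2 ≤ 2 * moll m (Ω.indicator (T Ω (f j))) z ^ 2 +
            2 * (moll m (Ω.indicator (T Ω (f j))) z - Ω.indicator (T Ω (f j)) z) ^ 2
        nlinarith [sq_nonneg (2 * moll m (Ω.indicator (T Ω (f j))) z -
          Ω.indicator (T Ω (f j)) z)]
      refine e2.trans ?_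
      rw [integral_add ((i1 j).const_mul 2) (((i2 j).integrableOn).const_mul 2),
        integral_const_mul, integral_const_mul]
      have e3 : ∫ z in K, (moll m (Ω.indicator (T Ω (f j))) z - Ω.indicator (T Ω (f j)) z) ^ 2 ≤
          ∫ z, (moll m (Ω.indicator (T Ω (f j))) z - Ω.indicator (T Ω (f j)) z) ^ 2 :=
        setIntegral_le_integral (i2 j) (Eventually.of_forall fun z => sq_nonneg _)
      linarith
    have hsum : ∑ j, ∫ z in K, moll m (Ω.indicator (T Ω (f j))) z ^ 2 ≤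
        C * (volume K).toReal := by
      rw [← integral_finset_sum _ fun j _ => i1 j]
      have h5 : ∫ z in K, ∑ j, moll m (Ω.indicator (T Ω (f j))) z ^ 2 ≤ ∫ z in K, C := by
        refine setIntegral_mono_on (integrable_finset_sum _ fun j _ => i1 j)
          (integrableOn_const hK.measure_lt_top.ne) hmK fun z hz => hpt z hz
      refine h5.trans (le_of_eq ?_)
      rw [setIntegral_const, smul_eq_mul, mul_comm]
      rfl
    calc ∑ j, ∫ z in K, (T Ω (f j) z) ^ 2 ∂(volume.restrict Ω)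
        ≤ ∑ j, (2 * (∫ z in K, moll m (Ω.indicator (T Ω (f j))) z ^ 2) +
          2 * ∫ z, (moll m (Ω.indicator (T Ω (f j))) z - Ω.indicator (T Ω (f j)) z) ^ 2) :=
          Finset.sum_le_sum fun j _ => hone j
      _ = 2 * (∑ j, ∫ z in K, moll m (Ω.indicator (T Ω (f j))) z ^ 2) +
          2 * ∑ j, ∫ z, (moll m (Ω.indicator (T Ω (f j))) z -
            Ω.indicator (T Ω (f j)) z) ^ 2 := by
          rw [Finset.sum_add_distrib, Finset.mul_sum, Finset.mul_sum]
      _ ≤ 2 * (C * (volume K).toReal) + 1 := by linarith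

end Vale.Agent.P071.NF
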