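import Vale.Agent.P071.H592.Comp2

set_option linter.all false

/-!
# The Hilbert basis of Neumann eigenfunctions
-/

open MeasureTheory Metric Filter Topology
open scoped ContDiff

namespace Vale.Agent.P071.NF

open Vale.Agent.P071.Lim

variable {Ω : Set ℂ}

/-- A Hilbert basis of Neumann eigenfunctions. -/
structure NB (Ω : Set ℂ) (ι : Type) where
  b : HilbertBasis ι ℝ (L2 Ω)
  κ : ι → ℝ
  e : ι → ℂ → ℝ
  nonneg : ∀ i, 0 ≤ κ i
  fin : ∀ M : ℝ, {i | κ i ≤ M}.Finite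
  smooth : ∀ i, ContDiffOn ℝ 2 (e i) Ω
  ae : ∀ i, (b i : ℂ → ℝ) =ᵐ[volume.restrict Ω] e i
  h1 : ∀ i, IsH1 Ω (e i) (px (e i)) (py (e i))
  eqn : ∀ i, ∀ z ∈ Ω, -Lim.lap (e i) z = κ i * e i z
  weak : ∀ i, ∀ v hx hy : ℂ → ℝ, IsH1 Ω v hx hy →
    ∫ z in Ω, (px (e i) z * hx z + py (e i) z * hy z) = κ i * ∫ z in Ω, e i z * v z
  res : ∀ i, T Ω (b i) = (1 + κ i)⁻¹ • b i

theorem eq_zero_of_T (ho : IsOpen Ω) {f : L2 Ω} (h : T Ω f = 0) : f = 0 := by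
  have h1 : ‖R Ω f‖ ^ 2 = 0 := by
    have h2 : ‖R Ω f‖ ^ 2 = inner ℝ f (T Ω f) := by
      rw [← real_inner_self_eq_norm_sq]
      exact inner_R f (R Ω f)
    rw [h2, h, inner_zero_right]
  have h2 : R Ω f = 0 := by
    rw [sq_eq_zero_iff, norm_eq_zero] at h1
    exact h1
  have h3 : ∀ φ : ℂ → ℝ, ContDiff ℝ ∞ φ → HasCompactSupport φ → tsupport φ ⊆ Ω →
      ∫ z, φ z • (Ω.indicator f z) = 0 := by
    intro φ h4 h5 h6
    have hφ : Tst Ω φ := ⟨h4, h5, h6⟩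
    have h7 := inner_R f ⟨_, mem_of_isH1 (tst_isH1 hφ ho)⟩
    rw [h2, inner_zero_left] at h7
    simp only [mk3_0] at h7
    rw [inner_tl_right hφ.memLp] at h7
    rw [h7, ← integral_indicator ho.measurableSet]
    congr 1
    funext z
    by_cases hz : z ∈ Ω
    · simp [hz, mul_comm]
    · simp [hz]
  have hf : MemLp (Ω.indicator f) 2 volume :=
    (memLp_indicator_iff_restrict ho.measurableSet).2 (Lp.memLp f)
  have h4 := ho.ae_eq_zero_of_integral_contDiff_smul_eq_zero (μ := volume)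
    (f := Ω.indicator f) ((hf.locallyIntegrable (by norm_num)).locallyIntegrableOn Ω) h3
  apply Lp.ext
  have h5 : ∀ᵐ z ∂(volume.restrict Ω), f z = 0 := by
    rw [ae_restrict_iff' ho.measurableSet]
    filter_upwards [h4] with z hz hzΩ
    have := hz hzΩ
    rwa [Set.indicator_of_mem hzΩ] at this
  filter_upwards [h5, Lp.coeFn_zero ℝ 2 (volume.restrict Ω)] with z h6 h7
  rw [h6, h7]
  rfl

/-- the eigenfunction attached to an eigenvector of the resolvent -/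
theorem exists_eig (ho : IsOpen Ω) {b : L2 Ω} (hb : ‖b‖ = 1) {l : ℝ} (hl : T Ω b = l • b) :
    0 < l ∧ l ≤ 1 ∧ ∃ e : ℂ → ℝ, ContDiffOn ℝ 2 e Ω ∧ (b : ℂ → ℝ) =ᵐ[volume.restrict Ω] e ∧
      IsH1 Ω e (px e) (py e) ∧ (∀ z ∈ Ω, -Lim.lap e z = (l⁻¹ - 1) * e z) ∧
      ∀ v hx hy : ℂ → ℝ, IsH1 Ω v hx hy →
        ∫ z in Ω, (px e z * hx z + py e z * hy z) = (l⁻¹ - 1) * ∫ z in Ω, e z * v z := by
  have h1 : ‖R Ω b‖ ^ 2 = l := by
    have h2 : ‖R Ω b‖ ^ 2 = inner ℝ b (T Ω b) := by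
      rw [← real_inner_self_eq_norm_sq]
      exact inner_R b (R Ω b)
    rw [h2, hl, inner_smul_right, real_inner_self_eq_norm_sq, hb]
    ring
  have hb0 : b ≠ 0 := by
    intro h
    rw [h, norm_zero] at hb
    exact zero_ne_one hb
  have hl0 : 0 < l := by
    refine lt_of_le_of_ne (h1 ▸ sq_nonneg _) fun h => ?_
    rw [← h, zero_smul] at hl
    exact hb0 (eq_zero_of_T ho hl)
  have hl1 : l ≤ 1 := by
    have h2 := norm_T_le b
    rw [hl, norm_smul, hb, mul_one, Real.norm_eq_abs, abs_of_pos hl0] at h2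
    exact h2
  refine ⟨hl0, hl1, ?_⟩
  set x : W Ω := l⁻¹ • R Ω b with hx
  have hx0 : (x : E3 Ω) 0 = b := by
    have : (x : E3 Ω) 0 = l⁻¹ • T Ω b := rfl
    rw [this, hl, smul_smul, inv_mul_cancel₀ hl0.ne', one_smul]
  have hweak : ∀ y : W Ω, inner ℝ ((x : E3 Ω) 1) ((y : E3 Ω) 1) +
      inner ℝ ((x : E3 Ω) 2) ((y : E3 Ω) 2) = (l⁻¹ - 1) * inner ℝ b ((y : E3 Ω) 0) := by
    intro y
    have h2 := weak_R b y
    have e1 : (x : E3 Ω) 1 = l⁻¹ • (R Ω b : E3 Ω) 1 := rfl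
    have e2 : (x : E3 Ω) 2 = l⁻¹ • (R Ω b : E3 Ω) 2 := rfl
    rw [e1, e2, real_inner_smul_left, real_inner_smul_left, ← mul_add, h2, hl, inner_sub_left,
      real_inner_smul_left]
    field_simp
  have hH : IsH1 Ω b ((x : E3 Ω) 1) ((x : E3 Ω) 2) := by
    have := isH1_of_mem x.2
    rwa [hx0] at this
  have hw1 : ∀ v hx hy : ℂ → ℝ, IsH1 Ω v hx hy →
      ∫ z in Ω, (((x : E3 Ω) 1) z * hx z + ((x : E3 Ω) 2) z * hy z) =
        (l⁻¹ - 1) * ∫ z in Ω, b z * v z := by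
    intro v p q hv
    have h3 := hweak ⟨_, mem_of_isH1 hv⟩
    simp only [mk3_0, mk3_1, mk3_2] at h3
    rw [inner_tl_right hv.v_mem, inner_tl_right hv.gx_mem, inner_tl_right hv.gy_mem] at h3
    have i1 : IntegrableOn (fun y => ((x : E3 Ω) 1) y * p y) Ω :=
      hH.gx_mem.integrable_mul hv.gx_mem
    have i2 : IntegrableOn (fun y => ((x : E3 Ω) 2) y * q y) Ω :=
      hH.gy_mem.integrable_mul hv.gy_mem
    rw [integral_add i1 i2]
    exact h3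
  have hwt : ∀ φ : ℂ → ℝ, ContDiff ℝ ∞ φ → HasCompactSupport φ → tsupport φ ⊆ Ω →
      ∫ y in Ω, (((x : E3 Ω) 1) y * px φ y + ((x : E3 Ω) 2) y * py φ y) =
        (l⁻¹ - 1) * ∫ y in Ω, b y * φ y := fun φ h2 h3 h4 =>
    hw1 φ _ _ (tst_isH1 ⟨h2, h3, h4⟩ ho)
  obtain ⟨w, hwc, hwu⟩ := Reg.exists_continuous_version ho hH hwt
  have hHw : IsH1 Ω w ((x : E3 Ω) 1) ((x : E3 Ω) 2) := Reg.IsH1.congr hH hwu
  have hbw : ∀ v : ℂ → ℝ, ∫ y in Ω, b y * v y = ∫ y in Ω, w y * v y := fun v =>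
    integral_congr_ae (hwu.mono fun y hy => by simp only; rw [hy])
  obtain ⟨hC2, heq, hgr⟩ := Lim.reg_H1 ho hHw hwc (fun φ h2 h3 h4 => by
    rw [hwt φ h2 h3 h4, hbw φ])
  have g1 : ((x : E3 Ω) 1 : ℂ → ℝ) =ᵐ[volume.restrict Ω] px w := hgr.mono fun y hy => hy.1
  have g2 : ((x : E3 Ω) 2 : ℂ → ℝ) =ᵐ[volume.restrict Ω] py w := hgr.mono fun y hy => hy.2
  refine ⟨w, hC2, hwu.mono fun y hy => hy.symm, ?_, heq, ?_⟩
  · exact isH1_of_c1 ho (hC2.of_le (by norm_num)) hHw.v_mem.integrable_sq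
      ((hHw.gx_mem.ae_eq g1).integrable_sq.add (hHw.gy_mem.ae_eq g2).integrable_sq)
  · intro v p q hv
    have h3 := hw1 v p q hv
    rw [hbw v] at h3
    rw [← h3]
    refine integral_congr_ae ?_
    filter_upwards [g1, g2] with z h4 h5
    rw [h4, h5]

/-- **The Neumann eigenfunctions of a tight domain form a Hilbert basis.** -/
theorem exists_NB (ho : IsOpen Ω) (hb : Bornology.IsBounded Ω) (hT : Tight Ω) :
    ∃ ι : Type, Nonempty (NB Ω ι) := by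
  obtain ⟨ι, b, l, hl⟩ := exists_eigenbasis (T Ω) (T_compact ho hb hT) T_symm
  have h := fun i => exists_eig ho (b.orthonormal.1 i) (hl i)
  choose h1 h2 e h3 h4 h5 h6 h7 using h
  have hκ : ∀ i, 0 ≤ (l i)⁻¹ - 1 := fun i => by
    have := (one_le_inv₀ (h1 i)).2 (h2 i)
    linarith
  refine ⟨ι, ⟨⟨b, fun i => (l i)⁻¹ - 1, e, hκ, fun M => ?_, h3, h4, h5, h6, h7, fun i => ?_⟩⟩⟩
  · by_cases hM : 0 ≤ M
    · refine (finite_large (T Ω) (T_compact ho hb hT) b l hl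
        (show 0 < 1 / (1 + M) by positivity)).subset fun i hi => ?_
      simp only [Set.mem_setOf_eq] at hi ⊢
      rw [div_le_iff₀ (by positivity)]
      have h8 : (l i)⁻¹ ≤ 1 + M := by linarith
      have h9 := mul_le_mul_of_nonneg_left h8 (h1 i).le
      rw [mul_inv_cancel₀ (h1 i).ne'] at h9
      exact h9
    · refine Set.Finite.subset Set.finite_empty fun i hi => ?_
      have h8 := hκ i
      have h9 : (l i)⁻¹ - 1 ≤ M := hi
      exact absurd (h8.trans h9) hM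
  · rw [hl i]
    congr 1
    rw [add_sub_cancel, inv_inv]

end Vale.Agent.P071.NF
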