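import Vale.Agent.P071.H592.Eig

set_option linter.all false

/-!
# Existence and uniqueness of the heat flow
-/

open MeasureTheory Metric Filter Topology
open scoped ContDiff

namespace Vale.Agent.P071.NF

open Vale.Agent.P071.Lim

variable {Ω : Set ℂ} {ι : Type}

/-- `(1 + κ)^k e^{-κ t}` is bounded. -/
theorem exp_bound (k : ℕ) {t : ℝ} (ht : 0 < t) : ∃ M : ℝ, 0 ≤ M ∧ ∀ κ s : ℝ, 0 ≤ κ → t ≤ s →
    (1 + κ) ^ k * Real.exp (-κ * s) ≤ M := by
  refine ⟨k.factorial * Real.exp t / t ^ k, by positivity, fun κ s hκ hs => ?_⟩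
  have h1 := Real.pow_div_factorial_le_exp ((1 + κ) * t) (by positivity) k
  have h2 : (1 + κ) ^ k * t ^ k ≤ k.factorial * Real.exp ((1 + κ) * t) := by
    rw [div_le_iff₀ (by positivity), mul_pow] at h1
    linarith
  rw [le_div_iff₀ (by positivity)]
  have h3 : Real.exp (-κ * s) ≤ Real.exp (-κ * t) := by
    apply Real.exp_le_exp.2
    nlinarith
  calc (1 + κ) ^ k * Real.exp (-κ * s) * t ^ k
      ≤ (1 + κ) ^ k * Real.exp (-κ * t) * t ^ k := by gcongr
    _ = ((1 + κ) ^ k * t ^ k) * Real.exp (-κ * t) := by ring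
    _ ≤ (k.factorial * Real.exp ((1 + κ) * t)) * Real.exp (-κ * t) := by gcongr
    _ = k.factorial * Real.exp t := by
        rw [mul_assoc, ← Real.exp_add]
        congr 2
        ring

theorem NB.ext_inner (N : NB Ω ι) {f g : L2 Ω}
    (h : ∀ i, inner ℝ (N.b i) f = inner ℝ (N.b i) g) : f = g := by
  have h1 : N.b.repr f = N.b.repr g := by
    ext i
    rw [HilbertBasis.repr_apply_apply, HilbertBasis.repr_apply_apply, h i]
  exact N.b.repr.injective h1

theorem NB.inner_e (N : NB Ω ι) (i : ι) {v : ℂ → ℝ} (hv : MemLp v 2 (volume.restrict Ω)) :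
    inner ℝ (N.b i) (tl Ω v) = ∫ z in Ω, N.e i z * v z := by
  rw [inner_tl_right hv]
  refine integral_congr_ae ?_
  filter_upwards [N.ae i] with z hz
  rw [hz]

/-- the multiplier `(1 + κ)^k e^{-κ t}` -/
theorem NB.exists_sol (N : NB Ω ι) (f : L2 Ω) (k : ℕ) {t : ℝ} (ht : 0 < t) :
    ∃ U : L2 Ω, ∀ i, inner ℝ (N.b i) U =
      (1 + N.κ i) ^ k * Real.exp (-N.κ i * t) * inner ℝ (N.b i) f := by
  obtain ⟨M, hM, h⟩ := exp_bound k ht
  obtain ⟨U, hU, -⟩ := exists_mult N.b (fun i => (1 + N.κ i) ^ k * Real.exp (-N.κ i * t)) hM f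
    (fun i _ => by
      have h1 := N.nonneg i
      rw [abs_of_nonneg (by positivity)]
      exact h _ _ h1 le_rfl)
  exact ⟨U, hU⟩

theorem NB.exists_W (N : NB Ω ι) (f : L2 Ω) {t : ℝ} (ht : 0 < t) {U : L2 Ω}
    (hU : ∀ i, inner ℝ (N.b i) U = Real.exp (-N.κ i * t) * inner ℝ (N.b i) f) :
    ∃ (x : W Ω) (g : L2 Ω), (x : E3 Ω) 0 = U ∧
      (∀ i, inner ℝ (N.b i) g = N.κ i * Real.exp (-N.κ i * t) * inner ℝ (N.b i) f) ∧
      ∀ y : W Ω, inner ℝ ((x : E3 Ω) 1) ((y : E3 Ω) 1) +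
        inner ℝ ((x : E3 Ω) 2) ((y : E3 Ω) 2) = inner ℝ g ((y : E3 Ω) 0) := by
  obtain ⟨h, hh⟩ := N.exists_sol f 1 ht
  have hT : T Ω h = U := by
    refine N.ext_inner fun i => ?_
    have h1 : inner ℝ (N.b i) (T Ω h) = inner ℝ (T Ω (N.b i)) h := (T_symm (N.b i) h).symm
    rw [h1, N.res i, real_inner_smul_left, hh i, hU i, pow_one]
    have := N.nonneg i
    have h2 : (1 + N.κ i) ≠ 0 := by positivity
    field_simp
  refine ⟨R Ω h, h - U, hT, fun i => ?_, fun y => ?_⟩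
  · rw [inner_sub_right, hh i, hU i]
    ring
  · rw [weak_R h y, hT]

theorem NB.pair (N : NB Ω ι) {x y : L2 Ω} :
    inner ℝ x y = ∑' i, inner ℝ (N.b i) x * inner ℝ (N.b i) y := by
  rw [← N.b.tsum_inner_mul_inner x y]
  refine tsum_congr fun i => ?_
  rw [real_inner_comm x (N.b i)]

theorem NB.pair_summable (N : NB Ω ι) (x y : L2 Ω) :
    Summable fun i => |inner ℝ (N.b i) x * inner ℝ (N.b i) y| := by
  have h := (N.b.summable_inner_mul_inner x y).abs
  refine h.congr fun i => ?_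
  rw [real_inner_comm x (N.b i)]

/-- the derivative of the pairing with the solution -/
theorem NB.hasDerivAt_pair (N : NB Ω ι) (f v : L2 Ω) {t : ℝ} (ht : 0 < t) :
    HasDerivAt (fun s => ∑' i, Real.exp (-N.κ i * s) * (inner ℝ (N.b i) f * inner ℝ (N.b i) v))
      (∑' i, -(N.κ i * Real.exp (-N.κ i * t) * (inner ℝ (N.b i) f * inner ℝ (N.b i) v))) t := by
  obtain ⟨M, hM, hb⟩ := exp_bound 1 (show 0 < t / 2 by positivity)
  set c : ι → ℝ := fun i => inner ℝ (N.b i) f * inner ℝ (N.b i) v with hc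
  have hsum : Summable fun i => M * |c i| := (N.pair_summable f v).mul_left M
  have htm : t ∈ Set.Ioi (t / 2) := by
    simp only [Set.mem_Ioi]; linarith
  refine hasDerivAt_tsum_of_isPreconnected (𝕜 := ℝ) (F := ℝ)
    (g := fun i s => Real.exp (-N.κ i * s) * c i)
    (g' := fun i s => -(N.κ i * Real.exp (-N.κ i * s) * c i))
    (t := Set.Ioi (t / 2)) (u := fun i => M * |c i|)
    (y₀ := t) (y := t) hsum isOpen_Ioi isPreconnected_Ioi (fun i s hs => ?_) (fun i s hs => ?_)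
    htm ?_ htm
  · have h1 : HasDerivAt (fun s => -N.κ i * s) (-N.κ i) s := by
      simpa using (hasDerivAt_id s).const_mul (-N.κ i)
    have h2 := (h1.exp).mul_const (c i)
    refine h2.congr_deriv ?_
    ring
  · have h1 := hb (N.κ i) s (N.nonneg i) (le_of_lt hs)
    have h2 := N.nonneg i
    rw [norm_neg, norm_mul, Real.norm_eq_abs, Real.norm_eq_abs, abs_of_nonneg (by positivity)]
    refine mul_le_mul_of_nonneg_right ?_ (abs_nonneg _)
    refine le_trans ?_ h1
    rw [pow_one]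
    have : 0 ≤ Real.exp (-N.κ i * s) := (Real.exp_pos _).le
    nlinarith
  · refine Summable.of_norm_bounded (g := fun i => |c i|) (N.pair_summable f v) fun i => ?_
    rw [norm_mul, Real.norm_eq_abs, Real.norm_eq_abs, abs_of_pos (Real.exp_pos _)]
    have h1 : Real.exp (-N.κ i * t) ≤ 1 := by
      rw [Real.exp_le_one_iff]
      have := N.nonneg i
      nlinarith
    nlinarith [abs_nonneg (c i)]

theorem NB.tendsto_pair (N : NB Ω ι) (f v : L2 Ω) :
    Tendsto (fun s => ∑' i, Real.exp (-N.κ i * s) * (inner ℝ (N.b i) f * inner ℝ (N.b i) v))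
      (𝓝[>] 0) (𝓝 (inner ℝ f v)) := by
  rw [N.pair]
  refine tendsto_tsum_of_dominated_convergence (N.pair_summable f v) (fun i => ?_) ?_
  · have h1 : Continuous fun s : ℝ => Real.exp (-N.κ i * s) *
        (inner ℝ (N.b i) f * inner ℝ (N.b i) v) := by fun_prop
    have h2 := (h1.tendsto 0).mono_left (nhdsWithin_le_nhds (s := Set.Ioi (0 : ℝ)))
    simpa using h2
  · filter_upwards [self_mem_nhdsWithin] with s hs i
    rw [norm_mul, Real.norm_eq_abs, Real.norm_eq_abs, abs_of_pos (Real.exp_pos _)]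
    have h1 : Real.exp (-N.κ i * s) ≤ 1 := by
      rw [Real.exp_le_one_iff]
      have := N.nonneg i
      have hs' : 0 < s := hs
      nlinarith
    nlinarith [abs_nonneg (inner ℝ (N.b i) f * inner ℝ (N.b i) v)]

/-- **Existence of the heat flow.** -/
theorem exists_flow (ho : IsOpen Ω) (N : NB Ω ι) {f : ℂ → ℝ}
    (hf : MemLp f 2 (volume.restrict Ω)) : ∃ u : ℝ → ℂ → ℝ, IsNeumannFlow Ω f u := by
  have hex : ∀ t : ℝ, ∃ U : L2 Ω, 0 < t → ∀ i, inner ℝ (N.b i) U =
      Real.exp (-N.κ i * t) * inner ℝ (N.b i) (tl Ω f) := by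
    intro t
    by_cases ht : 0 < t
    · obtain ⟨U, hU⟩ := N.exists_sol (tl Ω f) 0 ht
      exact ⟨U, fun _ i => by rw [hU i, pow_zero, one_mul]⟩
    · exact ⟨0, fun h => absurd h ht⟩
  choose U hU using hex
  have hpair : ∀ (v : ℂ → ℝ), MemLp v 2 (volume.restrict Ω) → ∀ s : ℝ, 0 < s →
      ∫ z in Ω, (U s) z * v z = ∑' i, Real.exp (-N.κ i * s) *
        (inner ℝ (N.b i) (tl Ω f) * inner ℝ (N.b i) (tl Ω v)) := by
    intro v hv s hs
    rw [← inner_tl_right hv, N.pair]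
    refine tsum_congr fun i => ?_
    rw [hU s hs i]
    ring
  refine ⟨fun t => U t, ⟨fun t ht => ?_, fun v hv => ?_⟩⟩
  · obtain ⟨x, g, hx0, hg, hw⟩ := N.exists_W (tl Ω f) ht (hU t ht)
    have hH : IsH1 Ω (U t) ((x : E3 Ω) 1) ((x : E3 Ω) 2) := by
      have := isH1_of_mem x.2
      rwa [hx0] at this
    refine ⟨_, _, hH, fun v hx hy hv => ?_⟩
    have h1 := N.hasDerivAt_pair (tl Ω f) (tl Ω v) ht
    have h2 : -∫ z in Ω, (((x : E3 Ω) 1) z * hx z + ((x : E3 Ω) 2) z * hy z) =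
        ∑' i, -(N.κ i * Real.exp (-N.κ i * t) *
          (inner ℝ (N.b i) (tl Ω f) * inner ℝ (N.b i) (tl Ω v))) := by
      have h3 := hw ⟨_, mem_of_isH1 hv⟩
      simp only [mk3_0, mk3_1, mk3_2] at h3
      rw [inner_tl_right hv.gx_mem, inner_tl_right hv.gy_mem] at h3
      have i1 : IntegrableOn (fun y => ((x : E3 Ω) 1) y * hx y) Ω :=
        hH.gx_mem.integrable_mul hv.gx_mem
      have i2 : IntegrableOn (fun y => ((x : E3 Ω) 2) y * hy y) Ω :=
        hH.gy_mem.integrable_mul hv.gy_mem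
      rw [integral_add i1 i2, h3, N.pair, ← tsum_neg]
      refine tsum_congr fun i => ?_
      rw [hg i]
      ring
    rw [h2]
    refine h1.congr_of_eventuallyEq ?_
    filter_upwards [eventually_gt_nhds ht] with s hs
    exact hpair v hv.v_mem s hs
  · have h1 := N.tendsto_pair (tl Ω f) (tl Ω v)
    rw [inner_tl hf hv] at h1
    refine h1.congr' ?_
    filter_upwards [self_mem_nhdsWithin] with s hs
    exact (hpair v hv s hs).symm

/-- the coefficients of a heat flow -/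
theorem coef (N : NB Ω ι) {f : ℂ → ℝ} (hf : MemLp f 2 (volume.restrict Ω)) {u : ℝ → ℂ → ℝ}
    (hu : IsNeumannFlow Ω f u) (i : ι) {t : ℝ} (ht : 0 < t) :
    inner ℝ (N.b i) (tl Ω (u t)) = Real.exp (-N.κ i * t) * inner ℝ (N.b i) (tl Ω f) := by
  set α : ℝ → ℝ := fun s => ∫ z in Ω, u s z * N.e i z with hα
  have hd : ∀ s : ℝ, 0 < s → HasDerivAt α (-(N.κ i * α s)) s := by
    intro s hs
    obtain ⟨gx, gy, hH, h⟩ := hu.flow s hs
    have h1 := h _ _ _ (N.h1 i)
    have h2 := N.weak i _ _ _ hH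
    have e1 : ∫ z in Ω, (gx z * px (N.e i) z + gy z * py (N.e i) z) = N.κ i * α s := by
      have e2 : ∫ z in Ω, (gx z * px (N.e i) z + gy z * py (N.e i) z) =
          ∫ z in Ω, (px (N.e i) z * gx z + py (N.e i) z * gy z) := by
        congr 1
        funext z
        ring
      rw [e2, h2, hα]
      congr 2
      funext z
      ring
    rw [e1] at h1
    exact h1
  set β : ℝ → ℝ := fun s => Real.exp (N.κ i * s) * α s with hβ
  have hdβ : ∀ s : ℝ, 0 < s → HasDerivAt β 0 s := by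
    intro s hs
    have h1 : HasDerivAt (fun s => N.κ i * s) (N.κ i) s := by
      simpa using (hasDerivAt_id s).const_mul (N.κ i)
    have h2 := h1.exp.mul (hd s hs)
    refine h2.congr_deriv ?_
    ring
  have hconst : ∀ s : ℝ, 0 < s → β s = β t := by
    intro s hs
    have hdiff : DifferentiableOn ℝ β (Set.Ioi 0) := fun r hr =>
      (hdβ r hr).differentiableAt.differentiableWithinAt
    have hzero : Set.EqOn (deriv β) 0 (Set.Ioi 0) := fun r hr => (hdβ r hr).deriv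
    exact isOpen_Ioi.is_const_of_deriv_eq_zero isPreconnected_Ioi hdiff hzero hs ht
  have hlim : Tendsto β (𝓝[>] 0) (𝓝 (inner ℝ (N.b i) (tl Ω f))) := by
    have h1 := hu.init (N.e i) (N.h1 i).v_mem
    have h2 : Tendsto (fun s : ℝ => Real.exp (N.κ i * s)) (𝓝[>] 0) (𝓝 1) := by
      have h3 : Continuous fun s : ℝ => Real.exp (N.κ i * s) := by fun_prop
      have h4 := (h3.tendsto 0).mono_left (nhdsWithin_le_nhds (s := Set.Ioi (0 : ℝ)))
      simpa using h4
    have h5 := h2.mul h1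
    rw [one_mul] at h5
    rw [N.inner_e i hf]
    have e1 : ∫ z in Ω, N.e i z * f z = ∫ z in Ω, f z * N.e i z := by simp_rw [mul_comm]
    rw [e1]
    exact h5
  have hlim2 : Tendsto β (𝓝[>] 0) (𝓝 (β t)) := by
    refine tendsto_const_nhds.congr' ?_
    filter_upwards [self_mem_nhdsWithin] with s hs
    exact (hconst s hs).symm
  have h6 : β t = inner ℝ (N.b i) (tl Ω f) := tendsto_nhds_unique hlim2 hlim
  obtain ⟨gx, gy, hH, -⟩ := hu.flow t ht
  rw [N.inner_e i hH.v_mem, ← h6]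
  have e1 : ∫ z in Ω, N.e i z * u t z = α t := by
    rw [hα]
    simp_rw [mul_comm]
  rw [e1, hβ]
  simp only
  rw [← mul_assoc, ← Real.exp_add]
  have : -N.κ i * t + N.κ i * t = 0 := by ring
  rw [this, Real.exp_zero, one_mul]

/-- **Uniqueness of the heat flow.** -/
theorem unique_flow (N : NB Ω ι) {f : ℂ → ℝ} (hf : MemLp f 2 (volume.restrict Ω))
    {u u' : ℝ → ℂ → ℝ} (hu : IsNeumannFlow Ω f u) (hu' : IsNeumannFlow Ω f u') {t : ℝ} (ht : 0 < t) :
    u t =ᵐ[volume.restrict Ω] u' t := by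
  obtain ⟨gx, gy, hH, -⟩ := hu.flow t ht
  obtain ⟨gx', gy', hH', -⟩ := hu'.flow t ht
  have h1 : tl Ω (u t) = tl Ω (u' t) :=
    N.ext_inner fun i => by rw [coef N hf hu i ht, coef N hf hu' i ht]
  have h2 := tl_ae hH.v_mem
  rw [h1] at h2
  exact h2.symm.trans (tl_ae hH'.v_mem)

end Vale.Agent.P071.NF
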