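import Vale.Agent.P071.H592.Spec

/-!
# Operators of Hilbert–Schmidt type are compact
-/

open Filter Topology

namespace Vale.Agent.P071.NF

variable {H G : Type*} [NormedAddCommGroup H] [InnerProductSpace ℝ H]
  [NormedAddCommGroup G] [NormedSpace ℝ G] [CompleteSpace G]

/-- An operator `S` is compact if for every `ε > 0` there is a quadratic `Q` with
`‖S g‖² ≤ Q g + ε ‖g‖²` whose sums over finite orthonormal families are bounded. -/
theorem compact_of_hs (S : H →L[ℝ] G)
    (h : ∀ ε : ℝ, 0 < ε → ∃ (Q : H → ℝ) (C : ℝ), (∀ g, ‖S g‖ ^ 2 ≤ Q g + ε * ‖g‖ ^ 2) ∧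
      ∀ (n : ℕ) (f : Fin n → H), Orthonormal ℝ f → ∑ j, Q (f j) ≤ C) :
    IsCompactOperator S := by
  have key : ∀ ε : ℝ, 0 < ε → ∃ P : H →L[ℝ] G, IsCompactOperator P ∧ ‖S - P‖ ≤ ε := by
    intro ε hε
    obtain ⟨Q, C, hQ, hC⟩ := h (ε ^ 2 / 2) (by positivity)
    set A : Set ℝ := {x | ∃ (n : ℕ) (f : Fin n → H), Orthonormal ℝ f ∧ x = ∑ j, Q (f j)} with hA
    have hne : A.Nonempty := ⟨0, 0, Fin.elim0, ⟨fun i => i.elim0, fun i => i.elim0⟩, by simp⟩
    have hbd : BddAbove A := ⟨C, by rintro x ⟨n, f, hf, rfl⟩; exact hC n f hf⟩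
    obtain ⟨x, ⟨n, f, hf, rfl⟩, hx⟩ := exists_lt_of_lt_csSup hne
      (show sSup A - ε ^ 2 / 2 < sSup A by nlinarith [sq_pos_of_pos hε])
    let V : Submodule ℝ H := Submodule.span ℝ (Set.range f)
    have hfin : FiniteDimensional ℝ V := FiniteDimensional.span_of_finite ℝ (Set.finite_range f)
    have hsmall : ∀ g ∈ Vᗮ, ‖S g‖ ≤ ε * ‖g‖ := by
      intro g hg
      by_cases hg0 : g = 0
      · rw [hg0, map_zero, norm_zero, norm_zero, mul_zero]
      have hgn : 0 < ‖g‖ := norm_pos_iff.2 hg0
      set e : H := ‖g‖⁻¹ • g with he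
      have he1 : ‖e‖ = 1 := by
        rw [he, norm_smul, norm_inv, norm_norm, inv_mul_cancel₀ hgn.ne']
      have heo : ∀ j, inner ℝ (f j) e = 0 := by
        intro j
        have h1 := (Submodule.mem_orthogonal V g).1 hg (f j) (Submodule.subset_span ⟨j, rfl⟩)
        rw [he, inner_smul_right, h1, mul_zero]
      have hon : Orthonormal ℝ (Fin.snoc f e : Fin (n + 1) → H) := by
        constructor
        · intro i
          refine Fin.lastCases ?_ (fun j => ?_) i
          · rw [Fin.snoc_last]; exact he1
          · rw [Fin.snoc_castSucc]; exact hf.1 j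
        · intro i j hij
          revert hij
          refine Fin.lastCases ?_ (fun i' => ?_) i
          · refine Fin.lastCases ?_ (fun j' => ?_) j
            · intro hij; exact absurd rfl hij
            · intro _
              rw [Fin.snoc_last, Fin.snoc_castSucc, real_inner_comm]
              exact heo j'
          · refine Fin.lastCases ?_ (fun j' => ?_) j
            · intro _
              rw [Fin.snoc_last, Fin.snoc_castSucc]
              exact heo i'
            · intro hij
              rw [Fin.snoc_castSucc, Fin.snoc_castSucc]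
              exact hf.2 fun hh => hij (by rw [hh])
      have h2 : ∑ j, Q ((Fin.snoc f e : Fin (n + 1) → H) j) ≤ sSup A :=
        le_csSup hbd ⟨n + 1, Fin.snoc f e, hon, rfl⟩
      rw [Fin.sum_univ_castSucc] at h2
      simp only [Fin.snoc_castSucc, Fin.snoc_last] at h2
      have h3 : ‖S e‖ ^ 2 < ε ^ 2 := by
        have h6 := hQ e
        rw [he1] at h6
        linarith
      have h4 : ‖S e‖ < ε := lt_of_pow_lt_pow_left₀ 2 hε.le h3
      have h5 : ‖S g‖ = ‖g‖ * ‖S e‖ := by
        rw [he, map_smul, norm_smul, norm_inv, norm_norm, ← mul_assoc,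
          mul_inv_cancel₀ hgn.ne', one_mul]
      rw [h5, mul_comm]
      exact mul_le_mul_of_nonneg_right h4.le hgn.le
    refine ⟨S.comp V.starProjection, ?_, ?_⟩
    · have hloc : ProperSpace V := FiniteDimensional.proper ℝ V
      have h1 : IsCompactOperator (V.orthogonalProjectionOnto : H → V) :=
        isCompactOperator_of_locallyCompactSpace_dom (V.orthogonalProjectionOnto)
      have h2 := h1.clm_comp (S.comp V.subtypeL)
      exact h2
    · refine ContinuousLinearMap.opNorm_le_bound _ hε.le fun x => ?_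
      have h1 : (S - S.comp V.starProjection) x = S (x - V.starProjection x) := by
        rw [map_sub]; rfl
      rw [h1]
      refine (hsmall _ (V.sub_starProjection_mem_orthogonal x)).trans ?_
      refine mul_le_mul_of_nonneg_left ?_ hε.le
      have h2 : x - V.starProjection x = Vᗮ.starProjection x := by
        rw [Submodule.starProjection_orthogonal_val]
      rw [h2]
      exact Submodule.norm_starProjection_apply_le _ _
  choose P hP1 hP2 using fun n : ℕ => key (1 / ((n : ℝ) + 1)) (by positivity)
  refine isCompactOperator_of_tendsto (l := atTop) (F := P) ?_ (Eventually.of_forall hP1)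
  rw [tendsto_iff_norm_sub_tendsto_zero]
  refine squeeze_zero (fun n => norm_nonneg _) (fun n => ?_) tendsto_one_div_add_atTop_nhds_zero_nat
  rw [norm_sub_rev]
  exact hP2 n

end Vale.Agent.P071.NF
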