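import Vale.Agent.P071.Stmt

open MeasureTheory Filter Topology

namespace Vale.Agent.P071

/-- `u(t)`, `t > 0`, is the heat flow in `Ω` with Neumann boundary condition and initial datum
`f ∈ L²(Ω)`: for `t > 0` the function `u(t)` is in `H¹(Ω)`, with weak gradient `(gx, gy)`, and
`d/dt ∫ u(t) v = -∫ ∇u(t)·∇v` for all `v ∈ H¹(Ω)`; and `∫ u(t) v → ∫ f v` as `t → 0` for all
`v ∈ L²(Ω)`. -/
structure IsNeumannFlow (Ω : Set ℂ) (f : ℂ → ℝ) (u : ℝ → ℂ → ℝ) : Prop where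
  flow : ∀ t : ℝ, 0 < t → ∃ gx gy : ℂ → ℝ, IsH1 Ω (u t) gx gy ∧
    ∀ v hx hy : ℂ → ℝ, IsH1 Ω v hx hy →
      HasDerivAt (fun s => ∫ z in Ω, u s z * v z)
        (-∫ z in Ω, (gx z * hx z + gy z * hy z)) t
  init : ∀ v : ℂ → ℝ, MemLp v 2 (volume.restrict Ω) →
    Tendsto (fun t => ∫ z in Ω, u t z * v z) (𝓝[>] 0) (𝓝 (∫ z in Ω, f z * v z))

end Vale.Agent.P071
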