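import Vale.Agent.P071.H592.Flow
import Vale.Agent.P071.H334.C1

set_option linter.all false

/-!
# Hot spots of the heat flow
-/

open MeasureTheory Metric Filter Topology
open scoped ContDiff

namespace Vale.Agent.P071.NF

open Vale.Agent.P071.Lim

variable {Ω : Set ℂ} {ι : Type} [DecidableEq ι]

theorem tl_add {f g : ℂ → ℝ} (hf : MemLp f 2 (volume.restrict Ω))
    (hg : MemLp g 2 (volume.restrict Ω)) :
    tl Ω (fun z => f z + g z) = tl Ω f + tl Ω g := by
  apply Lp.ext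
  filter_upwards [tl_ae (hf.add hg), Lp.coeFn_add (tl Ω f) (tl Ω g), tl_ae hf, tl_ae hg]
    with z h1 h2 h3 h4
  rw [h2, Pi.add_apply, h3, h4]
  exact h1

theorem tl_const_mul {f : ℂ → ℝ} (c : ℝ) (hf : MemLp f 2 (volume.restrict Ω)) :
    tl Ω (fun z => c * f z) = c • tl Ω f := by
  apply Lp.ext
  filter_upwards [tl_ae (hf.const_mul c), Lp.coeFn_smul c (tl Ω f), tl_ae hf] with z h1 h2 h3
  rw [h2, Pi.smul_apply, h3]
  exact h1

theorem NB.tl_e (N : NB Ω ι) (i : ι) : tl Ω (N.e i) = N.b i := by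
  rw [← tl_congr (N.ae i) (Lp.memLp _), tl_coe]

theorem NB.tl_sum (N : NB Ω ι) (a : ι → ℝ) (s : Finset ι) :
    tl Ω (fun z => ∑ i ∈ s, a i * N.e i z) = ∑ i ∈ s, a i • N.b i := by
  induction s using Finset.induction_on with
  | empty =>
    simp only [Finset.sum_empty]
    apply Lp.ext
    filter_upwards [tl_ae (Ω := Ω) (f := fun _ => (0 : ℝ)) (MemLp.zero' ),
      Lp.coeFn_zero ℝ 2 (volume.restrict Ω)] with z h1 h2
    rw [h1, h2]
    rfl
  | insert i s hi ih =>
    have hm : MemLp (fun z => ∑ i ∈ s, a i * N.e i z) 2 (volume.restrict Ω) :=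
      memLp_finset_sum s fun i _ => (N.h1 i).v_mem.const_mul (a i)
    rw [Finset.sum_insert hi, ← ih, ← N.tl_e i, ← tl_const_mul (a i) (N.h1 i).v_mem,
      ← tl_add ((N.h1 i).v_mem.const_mul (a i)) hm]
    congr 1
    funext z
    rw [Finset.sum_insert hi]

theorem NB.on (N : NB Ω ι) (i j : ι) :
    ∫ z in Ω, N.e i z * N.e j z = if i = j then 1 else 0 := by
  rw [← N.inner_e i (N.h1 j).v_mem, N.tl_e j]
  split_ifs with h
  · rw [h, real_inner_self_eq_norm_sq, N.b.orthonormal.1]; norm_num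
  · exact N.b.orthonormal.2 h

theorem NB.og (N : NB Ω ι) (i j : ι) :
    ∫ z in Ω, (px (N.e i) z * px (N.e j) z + py (N.e i) z * py (N.e j) z) =
      if i = j then N.κ i else 0 := by
  rw [N.weak i _ _ _ (N.h1 j), N.on]
  split_ifs <;> simp

omit [DecidableEq ι] in
theorem NB.countable (N : NB Ω ι) : Countable ι := by
  rw [← Set.countable_univ_iff]
  have : (Set.univ : Set ι) = ⋃ n : ℕ, {i | N.κ i ≤ n} := by
    ext i
    simp only [Set.mem_univ, Set.mem_iUnion, Set.mem_setOf_eq, true_iff]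
    exact exists_nat_ge _
  rw [this]
  exact Set.countable_iUnion fun n => (N.fin n).countable

/-- the `C¹` version of a function with rapidly decreasing coefficients -/
theorem NB.version (ho : IsOpen Ω) (N : NB Ω ι) {U : L2 Ω} {a : ι → ℝ}
    (ha : ∀ i, inner ℝ (N.b i) U = a i) (hs : Summable fun i => (1 + N.κ i) ^ 4 * a i ^ 2) :
    (U : ℂ → ℝ) =ᵐ[volume.restrict Ω] fun z => ∑' i, a i * N.e i z := by
  have h1 : HasSum (fun i => a i • N.b i) U := by
    have h := N.b.hasSum_repr U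
    refine h.congr_fun fun i => ?_
    rw [HilbertBasis.repr_apply_apply, ha i]
  have h2 : TendstoInMeasure (volume.restrict Ω)
      (fun (s : Finset ι) => ((∑ i ∈ s, a i • N.b i : L2 Ω) : ℂ → ℝ)) atTop U :=
    tendstoInMeasure_of_tendsto_Lp h1
  haveI := N.countable
  obtain ⟨ns, hns, hae⟩ := h2.exists_seq_tendsto_ae'
  have h3 : ∀ᵐ z ∂(volume.restrict Ω), ∀ n, ((∑ i ∈ ns n, a i • N.b i : L2 Ω) : ℂ → ℝ) z =
      ∑ i ∈ ns n, a i * N.e i z := by
    rw [ae_all_iff]
    intro n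
    rw [← N.tl_sum]
    exact tl_ae (memLp_finset_sum _ fun i _ => (N.h1 i).v_mem.const_mul (a i))
  filter_upwards [hae, h3, ae_restrict_mem ho.measurableSet] with z k1 k2 k3
  have h4 : Tendsto (fun n => ∑ i ∈ ns n, a i * N.e i z) atTop (𝓝 (∑' i, a i * N.e i z)) :=
    ((HF.c1_diff ho N.nonneg N.smooth N.eqn N.h1 N.on N.og a hs).2 z k3).hasSum.comp hns
  simp only [k2] at k1
  exact tendsto_nhds_unique k1 h4

omit [DecidableEq ι] in
theorem NB.const (ho : IsOpen Ω) (hc : IsPreconnected Ω) (N : NB Ω ι) {i : ι}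
    (hi : N.κ i = 0) : ∃ c, ∀ z ∈ Ω, N.e i z = c := by
  have h1 : ∫ z in Ω, gsq (N.e i) z = 0 := by
    have h := N.weak i _ _ _ (N.h1 i)
    rw [hi, zero_mul] at h
    rw [← h]
    congr 1
    funext z
    unfold gsq
    ring
  have hint : IntegrableOn (gsq (N.e i)) Ω :=
    (N.h1 i).gx_mem.integrable_sq.add (N.h1 i).gy_mem.integrable_sq
  have h2 : gsq (N.e i) =ᵐ[volume.restrict Ω] 0 :=
    (integral_eq_zero_iff_of_nonneg (fun z => gsq_nonneg_bd400 _ z) hint).1 h1
  have hC1 : ContDiffOn ℝ 1 (N.e i) Ω := (N.smooth i).of_le (by norm_num)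
  have h3 : Set.EqOn (gsq (N.e i)) 0 Ω :=
    MeasureTheory.Measure.eqOn_open_of_ae_eq h2 ho (continuousOn_gsq ho hC1) continuousOn_const
  have h4 : Ω.EqOn (fderiv ℝ (N.e i)) 0 := by
    intro z hz
    have h5 := CompA.norm_fderiv_le_gsq (N.e i) z
    rw [h3 hz] at h5
    simpa using h5
  exact ho.exists_is_const_of_fderiv_eq_zero hc (hC1.differentiableOn (by norm_num)) h4

theorem isH1_one (ho : IsOpen Ω) (hb : Bornology.IsBounded Ω) :
    IsH1 Ω (fun _ => (1 : ℝ)) (fun _ => 0) (fun _ => 0) := by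
  have hfin : volume Ω ≠ ⊤ := hb.measure_lt_top.ne
  have e1 : px (fun _ => (1 : ℝ)) = fun _ => 0 := by funext z; simp [px]
  have e2 : py (fun _ => (1 : ℝ)) = fun _ => 0 := by funext z; simp [py]
  have h := isH1_of_c1 ho (v := fun _ => (1 : ℝ)) contDiffOn_const
    (integrableOn_const hfin) (by
      unfold gsq
      rw [e1, e2]
      exact integrableOn_const hfin)
  rwa [e1, e2] at h

omit [DecidableEq ι] in
theorem NB.mean (ho : IsOpen Ω) (hb : Bornology.IsBounded Ω) (N : NB Ω ι) {i : ι}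
    (hi : N.κ i ≠ 0) : ∫ z in Ω, N.e i z = 0 := by
  have h := N.weak i _ _ _ (isH1_one ho hb)
  simp only [mul_zero, add_zero, integral_zero, mul_one] at h
  rcases mul_eq_zero.1 h.symm with h1 | h1
  · exact absurd h1 hi
  · exact h1

theorem NB.kappa_ge (ho : IsOpen Ω) (hb : Bornology.IsBounded Ω) (N : NB Ω ι) {i : ι}
    (hi : N.κ i ≠ 0) : muOne Ω ≤ N.κ i := by
  have h1 : ∫ z in Ω, N.e i z ^ 2 = 1 := by
    have := N.on i i
    rw [if_pos rfl] at this
    rw [← this]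
    congr 1
    funext z
    ring
  have h2 : ∫ z in Ω, (px (N.e i) z ^ 2 + py (N.e i) z ^ 2) = N.κ i := by
    have := N.og i i
    rw [if_pos rfl] at this
    rw [← this]
    congr 1
    funext z
    ring
  unfold muOne
  refine csInf_le ⟨0, ?_⟩ ⟨N.e i, _, _, N.h1 i, N.mean ho hb hi, by rw [h1]; norm_num, by
    rw [h1, h2, div_one]⟩
  rintro q ⟨v, gx, gy, -, -, hv, rfl⟩
  exact div_nonneg (integral_nonneg fun z => by positivity) hv.le

omit [DecidableEq ι] in
theorem NB.inV (N : NB Ω ι) {i : ι} (hi : N.κ i = muOne Ω) : InV Ω (N.e i) :=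
  ⟨_, _, N.h1 i, fun v hx hy hv => by rw [N.weak i v hx hy hv, hi]⟩

theorem NB.inV_sum (ho : IsOpen Ω) (hb : Bornology.IsBounded Ω) (N : NB Ω ι) (c : ι → ℝ)
    (s : Finset ι) (hs : ∀ i ∈ s, N.κ i = muOne Ω) :
    InV Ω (fun z => ∑ i ∈ s, c i * N.e i z) := by
  induction s using Finset.induction_on with
  | empty =>
    simp only [Finset.sum_empty]
    have h := Vale.Agent.P071.NC.IsH1.lin (isH1_one ho hb) (isH1_one ho hb) 0 0
    simp only [zero_mul, add_zero] at h
    exact ⟨_, _, h, fun v hx hy hv => by simp⟩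
  | insert i s hi ih =>
    have h1 := NC.InV.lin (N.inV (hs i (Finset.mem_insert_self i s)))
      (ih fun j hj => hs j (Finset.mem_insert_of_mem hj)) (c i) 1
    refine NC.InV.congr h1 (Eventually.of_forall fun z => ?_)
    rw [Finset.sum_insert hi, one_mul]

end Vale.Agent.P071.NF
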