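import Vale.Agent.P071.H592.Hot

set_option linter.all false

/-!
# Hot spots of the heat flow: the large time asymptotics
-/

open MeasureTheory Metric Filter Topology
open scoped ContDiff

namespace Vale.Agent.P071.NF

open Vale.Agent.P071.Lim

variable {Ω : Set ℂ} {ι : Type} [DecidableEq ι]

omit [DecidableEq ι] in
/-- the coefficients of the flow decrease rapidly -/
theorem NB.summable4 (N : NB Ω ι) (f : L2 Ω) {t : ℝ} (ht : 0 < t) :
    Summable fun i => (1 + N.κ i) ^ 4 * (Real.exp (-N.κ i * t) * inner ℝ (N.b i) f) ^ 2 := by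
  obtain ⟨M, hM, h⟩ := exp_bound 4 (show 0 < 2 * t by positivity)
  refine Summable.of_nonneg_of_le (fun i => ?_) (fun i => ?_)
    ((N.pair_summable f f).mul_left M)
  · have := N.nonneg i
    positivity
  · have h1 := h (N.κ i) (2 * t) (N.nonneg i) le_rfl
    have h2 : Real.exp (-N.κ i * t) ^ 2 = Real.exp (-N.κ i * (2 * t)) := by
      rw [← Real.exp_nat_mul]
      congr 1
      push_cast
      ring
    rw [mul_pow, h2, ← mul_assoc, abs_of_nonneg (mul_self_nonneg _), ← sq]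
    exact mul_le_mul_of_nonneg_right h1 (sq_nonneg _)

omit [DecidableEq ι] in
theorem NB.gap (N : NB Ω ι) (m : ℝ) : ∃ γ : ℝ, 0 < γ ∧ ∀ i, m < N.κ i → m + γ ≤ N.κ i := by
  classical
  have key : ∀ s : Finset ι, ∃ γ : ℝ, 0 < γ ∧ γ ≤ 1 ∧ ∀ i ∈ s, m < N.κ i → m + γ ≤ N.κ i := by
    intro s
    induction s using Finset.induction_on with
    | empty => exact ⟨1, one_pos, le_rfl, fun i hi => absurd hi (Finset.notMem_empty i)⟩
    | insert j s hj ih =>
      obtain ⟨γ, h1, h2, h3⟩ := ih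
      by_cases hm : m < N.κ j
      · refine ⟨min γ (N.κ j - m), lt_min h1 (by linarith), (min_le_left _ _).trans h2,
          fun i hi hmi => ?_⟩
        rcases Finset.mem_insert.1 hi with rfl | hi
        · have := min_le_right γ (N.κ i - m)
          linarith
        · have := h3 i hi hmi
          have h4 := min_le_left γ (N.κ j - m)
          linarith
      · refine ⟨γ, h1, h2, fun i hi hmi => ?_⟩
        rcases Finset.mem_insert.1 hi with rfl | hi
        · exact absurd hmi hm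
        · exact h3 i hi hmi
  obtain ⟨γ, h1, h2, h3⟩ := key (N.fin (m + 1)).toFinset
  refine ⟨γ, h1, fun i hi => ?_⟩
  by_cases hle : N.κ i ≤ m + 1
  · exact h3 i ((N.fin (m + 1)).mem_toFinset.2 hle) hi
  · push Not at hle
    linarith

/-- the remainder coefficients -/
noncomputable def rho (N : NB Ω ι) (f : L2 Ω) (t : ℝ) (i : ι) : ℝ :=
  if muOne Ω < N.κ i then Real.exp ((muOne Ω - N.κ i) * t) * inner ℝ (N.b i) f else 0

omit [DecidableEq ι] in
theorem rho_le (N : NB Ω ι) (f : L2 Ω) {γ : ℝ} (hγ : 0 < γ)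
    (hgap : ∀ i, muOne Ω < N.κ i → muOne Ω + γ ≤ N.κ i) {t : ℝ} (ht : 1 ≤ t) (i : ι) :
    (1 + N.κ i) ^ 4 * rho N f t i ^ 2 ≤ Real.exp (-2 * γ * (t - 1)) *
      (Real.exp (2 * muOne Ω) *
        ((1 + N.κ i) ^ 4 * (Real.exp (-N.κ i * 1) * inner ℝ (N.b i) f) ^ 2)) := by
  have h0 := N.nonneg i
  unfold rho
  split_ifs with h
  · have h1 := hgap i h
    have h2 : Real.exp ((muOne Ω - N.κ i) * t) ^ 2 ≤
        Real.exp (-2 * γ * (t - 1)) * (Real.exp (2 * muOne Ω) * Real.exp (-N.κ i * 1) ^ 2) := by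
      rw [← Real.exp_nat_mul, ← Real.exp_nat_mul, ← Real.exp_add, ← Real.exp_add]
      apply Real.exp_le_exp.2
      push_cast
      nlinarith [mul_nonneg (show 0 ≤ N.κ i - muOne Ω - γ by linarith)
        (show 0 ≤ t - 1 by linarith)]
    rw [mul_pow, mul_pow]
    calc (1 + N.κ i) ^ 4 * (Real.exp ((muOne Ω - N.κ i) * t) ^ 2 * inner ℝ (N.b i) f ^ 2)
        ≤ (1 + N.κ i) ^ 4 * ((Real.exp (-2 * γ * (t - 1)) *
          (Real.exp (2 * muOne Ω) * Real.exp (-N.κ i * 1) ^ 2)) * inner ℝ (N.b i) f ^ 2) := by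
          gcongr
      _ = _ := by ring
  · rw [zero_pow (by norm_num), mul_zero]
    positivity

omit [DecidableEq ι] in
theorem rho_summable (N : NB Ω ι) (f : L2 Ω) {γ : ℝ} (hγ : 0 < γ)
    (hgap : ∀ i, muOne Ω < N.κ i → muOne Ω + γ ≤ N.κ i) {t : ℝ} (ht : 1 ≤ t) :
    Summable fun i => (1 + N.κ i) ^ 4 * rho N f t i ^ 2 :=
  Summable.of_nonneg_of_le (fun i => by have := N.nonneg i; positivity)
    (fun i => rho_le N f hγ hgap ht i)
    (((N.summable4 f one_pos).mul_left _).mul_left _)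

theorem rho_tsum (N : NB Ω ι) (f : L2 Ω) {γ : ℝ} (hγ : 0 < γ)
    (hgap : ∀ i, muOne Ω < N.κ i → muOne Ω + γ ≤ N.κ i) {t : ℝ} (ht : 1 ≤ t) :
    ∑' i, (1 + N.κ i) ^ 4 * rho N f t i ^ 2 ≤ Real.exp (-2 * γ * (t - 1)) *
      (Real.exp (2 * muOne Ω) *
        ∑' i, (1 + N.κ i) ^ 4 * (Real.exp (-N.κ i * 1) * inner ℝ (N.b i) f) ^ 2) := by
  rw [← tsum_mul_left, ← tsum_mul_left]
  exact (rho_summable N f hγ hgap ht).tsum_le_tsum (fun i => rho_le N f hγ hgap ht i)
    (((N.summable4 f one_pos).mul_left _).mul_left _)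

theorem hasSum_ite (F : Finset ι) (g : ι → ℝ) :
    HasSum (fun i => if i ∈ F then g i else 0) (∑ i ∈ F, g i) := by
  have h : HasSum (fun i => if i ∈ F then g i else 0) (∑ i ∈ F, if i ∈ F then g i else 0) :=
    hasSum_sum_of_ne_finset_zero (fun i hi => if_neg hi)
  have e : ∑ i ∈ F, (if i ∈ F then g i else 0) = ∑ i ∈ F, g i :=
    Finset.sum_congr rfl fun i hi => if_pos hi
  rw [← e]
  exact h

/-- The asymptotics of the flow in `C¹(K)`. -/
theorem asymp (ho : IsOpen Ω) (hb : Bornology.IsBounded Ω) (hc : IsPreconnected Ω)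
    (N : NB Ω ι) (hμ : 0 < muOne Ω) (f : L2 Ω) :
    ∃ (m : ℝ) (F : Finset ι) (Q : ℝ → ℂ → ℝ), (∀ i, i ∈ F ↔ N.κ i = muOne Ω) ∧
      (∀ t, 1 ≤ t → ContDiffOn ℝ 1 (Q t) Ω) ∧
      (∀ t, 1 ≤ t → ∀ z ∈ Ω, ∑' i, (Real.exp (-N.κ i * t) * inner ℝ (N.b i) f) * N.e i z =
        m + Real.exp (-muOne Ω * t) *
          ((∑ i ∈ F, inner ℝ (N.b i) f * N.e i z) + Q t z)) ∧
      ∀ K : Set ℂ, IsCompact K → K ⊆ Ω → ∀ ε : ℝ, 0 < ε → ∃ T : ℝ, 1 ≤ T ∧ ∀ t, T ≤ t →
        ∀ z ∈ K, Q t z ^ 2 + gsq (Q t) z < ε := by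
  obtain ⟨γ, hγ, hgap⟩ := N.gap (muOne Ω)
  set F0 : Finset ι := (N.fin 0).toFinset with hF0
  set F : Finset ι := (N.fin (muOne Ω)).toFinset.filter fun i => N.κ i = muOne Ω with hF
  have hmF : ∀ i, i ∈ F ↔ N.κ i = muOne Ω := by
    intro i
    rw [hF, Finset.mem_filter, Set.Finite.mem_toFinset]
    exact ⟨fun h => h.2, fun h => ⟨h.le, h⟩⟩
  have hmF0 : ∀ i, i ∈ F0 ↔ N.κ i = 0 := by
    intro i
    rw [hF0, Set.Finite.mem_toFinset]
    exact ⟨fun h => le_antisymm h (N.nonneg i), fun h => h.le⟩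
  -- the constant
  have hconst : ∃ m : ℝ, ∀ z ∈ Ω, ∑ i ∈ F0, inner ℝ (N.b i) f * N.e i z = m := by
    have h1 : ∀ i, ∃ c : ℝ, i ∈ F0 → ∀ z ∈ Ω, N.e i z = c := by
      intro i
      by_cases hi : i ∈ F0
      · obtain ⟨c, hc'⟩ := N.const ho hc ((hmF0 i).1 hi)
        exact ⟨c, fun _ => hc'⟩
      · exact ⟨0, fun h => absurd h hi⟩
    choose c hc' using h1
    exact ⟨∑ i ∈ F0, inner ℝ (N.b i) f * c i, fun z hz =>
      Finset.sum_congr rfl fun i hi => by rw [hc' i hi z hz]⟩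
  obtain ⟨m, hm⟩ := hconst
  set Q : ℝ → ℂ → ℝ := fun t z => ∑' i, rho N f t i * N.e i z with hQ
  refine ⟨m, F, Q, hmF, fun t ht => ?_, fun t ht z hz => ?_, fun K hK hKΩ ε hε => ?_⟩
  · exact (HF.c1_diff ho N.nonneg N.smooth N.eqn N.h1 N.on N.og _
      (rho_summable N f hγ hgap ht)).1
  · have hsQ := (HF.c1_diff ho N.nonneg N.smooth N.eqn N.h1 N.on N.og _
      (rho_summable N f hγ hgap ht)).2 z hz
    have hdec : ∀ i, (Real.exp (-N.κ i * t) * inner ℝ (N.b i) f) * N.e i z =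
        (if i ∈ F0 then inner ℝ (N.b i) f * N.e i z else 0) + Real.exp (-muOne Ω * t) *
          ((if i ∈ F then inner ℝ (N.b i) f * N.e i z else 0) + rho N f t i * N.e i z) := by
      intro i
      by_cases h0 : N.κ i = 0
      · have h1 : i ∉ F := fun h => by
          rw [hmF i, h0] at h
          exact hμ.ne h
        have h2 : rho N f t i = 0 := by
          unfold rho
          rw [if_neg (by rw [h0]; exact not_lt.2 hμ.le)]
        rw [if_pos ((hmF0 i).2 h0), if_neg h1, h2, h0]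
        simp
      · have h1 : i ∉ F0 := fun h => h0 ((hmF0 i).1 h)
        rw [if_neg h1]
        have h2 := N.kappa_ge ho hb h0
        rcases h2.eq_or_lt with h3 | h3
        · have h4 : rho N f t i = 0 := by
            unfold rho
            rw [if_neg (by rw [← h3]; exact lt_irrefl _)]
          rw [if_pos ((hmF i).2 h3.symm), h4, ← h3]
          ring
        · have h4 : i ∉ F := fun h => h3.ne' ((hmF i).1 h)
          rw [if_neg h4]
          unfold rho
          rw [if_pos h3, zero_add, zero_add, ← mul_assoc, ← mul_assoc, ← Real.exp_add]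
          congr 3
          ring
    have hs0 := hasSum_ite F0 (fun i => inner ℝ (N.b i) f * N.e i z)
    have hs1 := hasSum_ite F (fun i => inner ℝ (N.b i) f * N.e i z)
    have hs := hs0.add ((hs1.add hsQ.hasSum).mul_left (Real.exp (-muOne Ω * t)))
    rw [← hm z hz]
    refine HasSum.tsum_eq ?_
    refine hs.congr_fun fun i => ?_
    exact hdec i
  · obtain ⟨C, hC⟩ := HF.c1_sum ho N.e N.κ N.nonneg N.smooth N.eqn N.h1 N.on N.og hK hKΩ
    set A := Real.exp (2 * muOne Ω) *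
        ∑' i, (1 + N.κ i) ^ 4 * (Real.exp (-N.κ i * 1) * inner ℝ (N.b i) f) ^ 2 with hA
    have hlim : Tendsto (fun t : ℝ => |C| * (Real.exp (-2 * γ * (t - 1)) * A)) atTop (𝓝 0) := by
      have h1 : Tendsto (fun t : ℝ => Real.exp (-2 * γ * (t - 1))) atTop (𝓝 0) := by
        apply Real.tendsto_exp_atBot.comp
        have h2 : Tendsto (fun t : ℝ => t - 1) atTop atTop := tendsto_atTop_add_const_right _ _ tendsto_id
        have h3 := h2.const_mul_atTop_of_neg (show -2 * γ < 0 by linarith)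
        exact h3
      have h4 := (h1.mul_const A).const_mul |C|
      simpa using h4
    obtain ⟨T, hT⟩ := ((hlim.eventually (gt_mem_nhds hε)).and (eventually_ge_atTop 1)).exists_forall_of_atTop
    refine ⟨max T 1, le_max_right _ _, fun t ht z hz => ?_⟩
    have ht1 : 1 ≤ t := (le_max_right _ _).trans ht
    have h1 := hC _ (rho_summable N f hγ hgap ht1) z hz
    refine h1.trans_lt ?_
    have h2 := rho_tsum N f hγ hgap ht1
    have h3 := (hT t ((le_max_left _ _).trans ht)).1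
    refine lt_of_le_of_lt ?_ h3
    have h4 : 0 ≤ ∑' i, (1 + N.κ i) ^ 4 * rho N f t i ^ 2 :=
      tsum_nonneg fun i => by have := N.nonneg i; positivity
    exact mul_le_mul (le_abs_self C) h2 h4 (abs_nonneg C)

end Vale.Agent.P071.NF
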