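import Vale.Agent.P071.H592.HotMain
import Vale.Agent.P071.H969.Final

set_option linter.all false

/-!
# Hot spots of the heat flow: final form
-/

open MeasureTheory Metric Filter Topology
open scoped ContDiff

namespace Vale.Agent.P071.NF

open Vale.Agent.P071.Lim

/-- **Hot spots of the heat flow.** -/
theorem heat_hot_spots {Ω : Set ℂ} (ho : IsOpen Ω) (hb : Bornology.IsBounded Ω)
    (hs : IsSimplyConnected Ω) (hT : Tight Ω) {f : ℂ → ℝ} (hf : MemLp f 2 (volume.restrict Ω)) :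
    ∃ w : ℝ → ℂ → ℝ, IsNeumannFlow Ω f w ∧ (∀ t, 0 < t → ContDiffOn ℝ 1 (w t) Ω) ∧
      (∀ u : ℝ → ℂ → ℝ, IsNeumannFlow Ω f u → ∀ t, 0 < t →
        ∀ᵐ z ∂(volume.restrict Ω), u t z = w t z) ∧
      ((∃ v : ℂ → ℝ, InV Ω v ∧ ∫ z in Ω, f z * v z ≠ 0) →
        ∀ K : Set ℂ, IsCompact K → K ⊆ Ω → ∃ T : ℝ, 0 < T ∧ ∀ t, T ≤ t →
          (∀ x ∈ K, fderiv ℝ (w t) x ≠ 0) ∧ (∃ y ∈ Ω, ∀ x ∈ K, w t x < w t y) ∧
            ∃ y ∈ Ω, ∀ x ∈ K, w t y < w t x) := by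
  classical
  obtain ⟨ι, ⟨N⟩⟩ := exists_NB ho hb hT
  obtain ⟨-, -, -, -, hμ⟩ := NC.setup ho hb hs hT
  obtain ⟨u₀, hu₀⟩ := exists_flow ho N hf
  set c : ι → ℝ := fun i => inner ℝ (N.b i) (tl Ω f) with hc
  set w : ℝ → ℂ → ℝ := fun t z => ∑' i, (Real.exp (-N.κ i * t) * c i) * N.e i z with hw
  have hver : ∀ u : ℝ → ℂ → ℝ, IsNeumannFlow Ω f u → ∀ t, 0 < t →
      ∀ᵐ z ∂(volume.restrict Ω), u t z = w t z := by
    intro u hu t ht
    obtain ⟨gx, gy, hH, -⟩ := hu.flow t ht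
    have h1 := N.version ho (fun i => coef N hf hu i ht) (N.summable4 (tl Ω f) ht)
    filter_upwards [h1, tl_ae hH.v_mem] with z h2 h3
    rw [← h3, h2]
  have hwf : IsNeumannFlow Ω f w := flow_congr hu₀ fun t ht => by
    filter_upwards [hver u₀ hu₀ t ht] with z hz
    exact hz.symm
  refine ⟨w, hwf, fun t ht => ?_, hver, fun hv K hK hKΩ => ?_⟩
  · exact (HF.c1_diff ho N.nonneg N.smooth N.eqn N.h1 N.on N.og _ (N.summable4 (tl Ω f) ht)).1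
  · obtain ⟨m, F, Q, hF, hQ1, hQ2, hQ3⟩ :=
      asymp ho hb hs.isPathConnected.isConnected.isPreconnected N hμ (tl Ω f)
    set P : ℂ → ℝ := fun z => ∑ i ∈ F, inner ℝ (N.b i) (tl Ω f) * N.e i z with hP
    have hPV : InV Ω P := N.inV_sum ho hb _ F fun i hi => (hF i).1 hi
    have hPc : ContinuousOn P Ω := continuousOn_finset_sum _ fun i _ =>
      continuousOn_const.mul (N.smooth i).continuousOn
    have hP2 : ContDiffOn ℝ 2 P Ω := (NC.smooth_of_inV ho hPV hPc).1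
    have hne : ∃ z ∈ Ω, P z ≠ 0 := mode_ne ho N hf hF hv
    have hcrit := NC.no_crit ho hb hs hT hPV hPc hne
    obtain ⟨K', ε, hK', hK'Ω, hε, hcon⟩ := concl ho (hP2.of_le (by norm_num)) hcrit
      hs.nonempty hK hKΩ
    obtain ⟨T, hT1, hTT⟩ := hQ3 K' hK' hK'Ω ε hε
    refine ⟨T, by linarith, fun t ht => ?_⟩
    exact hcon (Q t) (w t) m (Real.exp (-muOne Ω * t)) (Real.exp_pos _)
      (hQ1 t (hT1.trans ht)) (fun z hz => hQ2 t (hT1.trans ht) z hz) (hTT t ht)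

end Vale.Agent.P071.NF
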