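import Vale.Agent.P071.H592.Hot2

set_option linter.all false

/-!
# Hot spots of the heat flow: conclusion
-/

open MeasureTheory Metric Filter Topology
open scoped ContDiff

namespace Vale.Agent.P071.NF

open Vale.Agent.P071.Lim

variable {Ω : Set ℂ}

theorem gsq_pos_of_ne {P : ℂ → ℝ} {x : ℂ} (h : fderiv ℝ P x ≠ 0) : 0 < gsq P x := by
  refine lt_of_le_of_ne (gsq_nonneg_bd400 _ x) fun h0 => h ?_
  have h1 := CompA.norm_fderiv_le_gsq P x
  rw [← h0] at h1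
  simpa using h1

theorem exists_above (ho : IsOpen Ω) {P : ℂ → ℝ} (hP : ContDiffOn ℝ 1 P Ω)
    (hcrit : ∀ x ∈ Ω, fderiv ℝ P x ≠ 0) {K : Set ℂ} (hK : IsCompact K) (hKΩ : K ⊆ Ω)
    (hne : K.Nonempty) : ∃ y ∈ Ω, ∃ δ : ℝ, 0 < δ ∧ ∀ x ∈ K, P x + δ ≤ P y := by
  obtain ⟨x₀, hx₀, hmax⟩ := hK.exists_isMaxOn hne (hP.continuousOn.mono hKΩ)
  by_contra hcon
  push Not at hcon
  have h1 : ∀ y ∈ Ω, P y ≤ P x₀ := by
    intro y hy
    by_contra h2
    push Not at h2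
    obtain ⟨x, hx, h3⟩ := hcon y hy (P y - P x₀) (by linarith)
    have h4 : P x ≤ P x₀ := hmax hx
    linarith
  have h5 : IsLocalMax P x₀ := by
    filter_upwards [ho.mem_nhds (hKΩ hx₀)] with y hy
    exact h1 y hy
  exact hcrit x₀ (hKΩ hx₀) h5.fderiv_eq_zero

theorem fderiv_comb (ho : IsOpen Ω) {P Q w : ℂ → ℝ} (hP : ContDiffOn ℝ 1 P Ω)
    (hQ : ContDiffOn ℝ 1 Q Ω) {m s : ℝ} (hw : ∀ z ∈ Ω, w z = m + s * (P z + Q z)) {x : ℂ}
    (hx : x ∈ Ω) : fderiv ℝ w x = s • (fderiv ℝ P x + fderiv ℝ Q x) := by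
  have h1 : w =ᶠ[𝓝 x] fun z => m + s * (P z + Q z) := by
    filter_upwards [ho.mem_nhds hx] with z hz
    exact hw z hz
  rw [h1.fderiv_eq]
  have d1 : DifferentiableAt ℝ P x :=
    (hP.differentiableOn (by norm_num)).differentiableAt (ho.mem_nhds hx)
  have d2 : DifferentiableAt ℝ Q x :=
    (hQ.differentiableOn (by norm_num)).differentiableAt (ho.mem_nhds hx)
  exact (((d1.hasFDerivAt.add d2.hasFDerivAt).const_mul s).const_add m).fderiv

/-- small `C¹` perturbations of a function without critical points -/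
theorem concl (ho : IsOpen Ω) {P : ℂ → ℝ} (hP : ContDiffOn ℝ 1 P Ω)
    (hcrit : ∀ x ∈ Ω, fderiv ℝ P x ≠ 0) (hne : Ω.Nonempty) {K : Set ℂ} (hK : IsCompact K)
    (hKΩ : K ⊆ Ω) : ∃ (K' : Set ℂ) (ε : ℝ), IsCompact K' ∧ K' ⊆ Ω ∧ 0 < ε ∧
      ∀ (Q w : ℂ → ℝ) (m s : ℝ), 0 < s → ContDiffOn ℝ 1 Q Ω →
        (∀ z ∈ Ω, w z = m + s * (P z + Q z)) → (∀ z ∈ K', Q z ^ 2 + gsq Q z < ε) →
        (∀ x ∈ K, fderiv ℝ w x ≠ 0) ∧ (∃ y ∈ Ω, ∀ x ∈ K, w x < w y) ∧
          ∃ y ∈ Ω, ∀ x ∈ K, w y < w x := by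
  obtain ⟨z₀, hz₀⟩ := hne
  set K₁ : Set ℂ := insert z₀ K with hK₁
  have hK₁c : IsCompact K₁ := hK.insert z₀
  have hK₁Ω : K₁ ⊆ Ω := Set.insert_subset hz₀ hKΩ
  have hK₁n : K₁.Nonempty := Set.insert_nonempty _ _
  obtain ⟨y₁, hy₁, δ₁, hδ₁, h₁⟩ := exists_above ho hP hcrit hK₁c hK₁Ω hK₁n
  obtain ⟨y₂, hy₂, δ₂, hδ₂, h₂⟩ := exists_above ho (P := fun z => -P z) hP.neg (fun x hx h => by
    rw [fderiv_fun_neg] at h
    exact hcrit x hx (neg_eq_zero.1 h)) hK₁c hK₁Ω hK₁n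
  obtain ⟨x₃, hx₃, hmin⟩ := hK₁c.exists_isMinOn hK₁n ((continuousOn_gsq ho hP).mono hK₁Ω)
  have hc : 0 < gsq P x₃ := gsq_pos_of_ne (hcrit x₃ (hK₁Ω hx₃))
  set δ := min δ₁ δ₂ with hδ
  have hδ0 : 0 < δ := lt_min hδ₁ hδ₂
  refine ⟨insert y₁ (insert y₂ K₁), min (gsq P x₃) ((δ / 2) ^ 2), (hK₁c.insert y₂).insert y₁,
    Set.insert_subset hy₁ (Set.insert_subset hy₂ hK₁Ω), lt_min hc (by positivity), ?_⟩
  intro Q w m s hs hQ hw hsmall
  have hQd : ∀ z ∈ insert y₁ (insert y₂ K₁), |Q z| < δ / 2 := by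
    intro z hz
    have h3 := (hsmall z hz).trans_le (min_le_right _ _)
    have h4 := gsq_nonneg_bd400 Q z
    exact abs_lt_of_sq_lt_sq (by linarith) (by positivity)
  have hKin : ∀ x ∈ K, x ∈ K₁ := fun x hx => Set.mem_insert_of_mem _ hx
  have hin : ∀ x ∈ K₁, x ∈ insert y₁ (insert y₂ K₁) := fun x hx =>
    Set.mem_insert_of_mem _ (Set.mem_insert_of_mem _ hx)
  refine ⟨fun x hx h0 => ?_, ⟨y₁, hy₁, fun x hx => ?_⟩, ⟨y₂, hy₂, fun x hx => ?_⟩⟩
  · have h3 := fderiv_comb ho hP hQ hw (hKΩ hx)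
    rw [h0] at h3
    have h4 : fderiv ℝ P x + fderiv ℝ Q x = 0 := by
      rcases smul_eq_zero.1 h3.symm with h5 | h5
      · exact absurd h5 hs.ne'
      · exact h5
    have h5 : fderiv ℝ P x = -fderiv ℝ Q x := eq_neg_of_add_eq_zero_left h4
    have h6 : gsq P x = gsq Q x := by
      unfold gsq px py
      rw [h5]
      simp
    have h7 : gsq P x₃ ≤ gsq P x := hmin (hKin x hx)
    have h8 := (hsmall x (hin x (hKin x hx))).trans_le (min_le_left _ _)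
    nlinarith [sq_nonneg (Q x)]
  · have h3 := h₁ x (hKin x hx)
    have h4 := hQd x (hin x (hKin x hx))
    have h5 := hQd y₁ (Set.mem_insert _ _)
    rw [hw x (hKΩ hx), hw y₁ hy₁]
    have h6 : δ ≤ δ₁ := min_le_left _ _
    rw [abs_lt] at h4 h5
    have h7 : P x + Q x < P y₁ + Q y₁ := by linarith
    have := mul_lt_mul_of_pos_left h7 hs
    linarith
  · have h3 := h₂ x (hKin x hx)
    have h4 := hQd x (hin x (hKin x hx))
    have h5 := hQd y₂ (Set.mem_insert_of_mem _ (Set.mem_insert _ _))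
    rw [hw x (hKΩ hx), hw y₂ hy₂]
    have h6 : δ ≤ δ₂ := min_le_right _ _
    rw [abs_lt] at h4 h5
    have h7 : P y₂ + Q y₂ < P x + Q x := by linarith
    have := mul_lt_mul_of_pos_left h7 hs
    linarith

/-- the flow is unchanged by modifications on null sets -/
theorem flow_congr {f : ℂ → ℝ} {u w : ℝ → ℂ → ℝ} (hu : IsNeumannFlow Ω f u)
    (h : ∀ t, 0 < t → ∀ᵐ z ∂(volume.restrict Ω), w t z = u t z) : IsNeumannFlow Ω f w := by
  have key : ∀ (v : ℂ → ℝ) (t : ℝ), 0 < t → ∫ z in Ω, w t z * v z = ∫ z in Ω, u t z * v z := by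
    intro v t ht
    refine integral_congr_ae ?_
    filter_upwards [h t ht] with z hz
    rw [hz]
  refine ⟨fun t ht => ?_, fun v hv => ?_⟩
  · obtain ⟨gx, gy, hH, hd⟩ := hu.flow t ht
    refine ⟨gx, gy, Reg.IsH1.congr hH (h t ht), fun v hx hy hv => ?_⟩
    refine (hd v hx hy hv).congr_of_eventuallyEq ?_
    filter_upwards [eventually_gt_nhds ht] with s hs
    exact key v s hs
  · refine (hu.init v hv).congr' ?_
    filter_upwards [self_mem_nhdsWithin] with s hs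
    exact (key v s hs).symm

variable {ι : Type} [DecidableEq ι]

/-- the first mode is nonzero -/
theorem mode_ne (ho : IsOpen Ω) (N : NB Ω ι) {f : ℂ → ℝ} (hf : MemLp f 2 (volume.restrict Ω))
    {F : Finset ι} (hF : ∀ i, i ∈ F ↔ N.κ i = muOne Ω)
    (h : ∃ v : ℂ → ℝ, InV Ω v ∧ ∫ z in Ω, f z * v z ≠ 0) :
    ∃ z ∈ Ω, ∑ i ∈ F, inner ℝ (N.b i) (tl Ω f) * N.e i z ≠ 0 := by
  by_contra hcon
  push Not at hcon
  obtain ⟨v, ⟨gx, gy, hH, hv⟩, hne⟩ := h
  apply hne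
  rw [← inner_tl hf hH.v_mem, N.pair]
  have hP0 : ∑ i ∈ F, inner ℝ (N.b i) (tl Ω f) • N.b i = (0 : L2 Ω) := by
    rw [← N.tl_sum]
    have hm : MemLp (fun z => ∑ i ∈ F, inner ℝ (N.b i) (tl Ω f) * N.e i z) 2
      (volume.restrict Ω) := memLp_finset_sum _ fun i _ => (N.h1 i).v_mem.const_mul _
    apply Lp.ext
    filter_upwards [tl_ae hm, Lp.coeFn_zero ℝ 2 (volume.restrict Ω),
      ae_restrict_mem ho.measurableSet] with z h1 h2 h3
    rw [h1, h2, hcon z h3]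
    rfl
  have hz : ∀ i, inner ℝ (N.b i) (tl Ω f) * inner ℝ (N.b i) (tl Ω v) = 0 := by
    intro i
    by_cases hi : i ∈ F
    · have h1 : inner ℝ (N.b i) (∑ j ∈ F, inner ℝ (N.b j) (tl Ω f) • N.b j) =
          inner ℝ (N.b i) (tl Ω f) := by
        rw [inner_sum, Finset.sum_eq_single i]
        · rw [real_inner_smul_right, real_inner_self_eq_norm_sq, N.b.orthonormal.1]
          norm_num
        · intro j _ hj
          rw [real_inner_smul_right, N.b.orthonormal.2 hj.symm, mul_zero]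
        · exact fun h => absurd hi h
      rw [hP0, inner_zero_right] at h1
      rw [← h1, zero_mul]
    · have h1 := hv _ _ _ (N.h1 i)
      have h2 := N.weak i _ _ _ hH
      have e2 : ∫ z in Ω, (gx z * px (N.e i) z + gy z * py (N.e i) z) =
          ∫ z in Ω, (px (N.e i) z * gx z + py (N.e i) z * gy z) := by
        congr 1
        funext z
        ring
      have e3 : ∫ z in Ω, v z * N.e i z = ∫ z in Ω, N.e i z * v z := by
        congr 1
        funext z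
        ring
      rw [e2, h2, e3] at h1
      have h3 : N.κ i - muOne Ω ≠ 0 := fun h => hi ((hF i).2 (by linarith))
      have h4 : (N.κ i - muOne Ω) * ∫ z in Ω, N.e i z * v z = 0 := by linarith
      rw [N.inner_e i hH.v_mem, (mul_eq_zero.1 h4).resolve_left h3, mul_zero]
  simp [hz]

end Vale.Agent.P071.NF
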