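import Mathlib.Analysis.InnerProductSpace.Spectrum
import Mathlib.Analysis.InnerProductSpace.l2Space
import Mathlib.Analysis.InnerProductSpace.Adjoint
import Mathlib.Tactic

/-!
# A Hilbert basis of eigenvectors of a compact symmetric operator
-/

open Module.End Filter Topology

namespace Vale.Agent.P071.NF

universe u v

variable {H : Type u} [NormedAddCommGroup H] [InnerProductSpace ℝ H] [CompleteSpace H]

/-- A Hilbert basis adapted to an orthogonal family of closed subspaces. -/
theorem exists_sigma_basis {κ : Type v} (V : κ → Submodule ℝ H)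
    (hcomp : ∀ k, CompleteSpace (V k))
    (ho : OrthogonalFamily ℝ (fun k => V k) fun k => (V k).subtypeₗᵢ)
    (hb : (⨆ k, V k)ᗮ = ⊥) :
    ∃ (ι : Type (max u v)) (e : HilbertBasis ι ℝ H) (c : ι → κ), ∀ i, e i ∈ V (c i) := by
  have hex : ∀ k, ∃ (w : Set (V k)), Nonempty (HilbertBasis w ℝ (V k)) := fun k => by
    obtain ⟨w, b, -⟩ := exists_hilbertBasis ℝ (V k)
    exact ⟨w, ⟨b⟩⟩
  choose w hw using hex
  have b : ∀ k, HilbertBasis (w k) ℝ (V k) := fun k => (hw k).some
  let v : (Σ k, w k) → H := fun i => ((b i.1 i.2 : V i.1) : H)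
  have hv : Orthonormal ℝ v :=
    ho.orthonormal_sigma_orthonormal (v_family := fun k i => b k i) (fun k => (b k).orthonormal)
  have htop : (Submodule.span ℝ (Set.range v))ᗮ = ⊥ := by
    rw [eq_bot_iff, ← hb]
    intro x hx
    rw [Submodule.mem_orthogonal] at hx ⊢
    intro u hu
    have key : ∀ k, ∀ y ∈ V k, inner ℝ y x = 0 := by
      intro k y hy
      have h3 := (b k).hasSum_repr ⟨y, hy⟩
      have h5 := h3.mapL (V k).subtypeL
      have h6 := h5.mapL (innerSL ℝ x)
      have h7 : ∀ i, (innerSL ℝ x) ((V k).subtypeL ((b k).repr ⟨y, hy⟩ i • (b k i))) = 0 := by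
        intro i
        have h8 := hx (v ⟨k, i⟩) (Submodule.subset_span ⟨_, rfl⟩)
        rw [real_inner_comm] at h8
        rw [map_smul, map_smul]
        show _ • inner ℝ x (v ⟨k, i⟩) = 0
        rw [h8, smul_zero]
      simp only [h7] at h6
      have h9 := h6.unique hasSum_zero
      rw [real_inner_comm]
      simpa using h9
    refine Submodule.iSup_induction V (motive := fun u => inner ℝ u x = 0) hu key ?_ ?_
    · exact inner_zero_left _
    · intro y z h3 h4
      rw [inner_add_left, h3, h4, add_zero]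
  refine ⟨_, HilbertBasis.mkOfOrthogonalEqBot hv htop, fun i => i.1, fun i => ?_⟩
  rw [HilbertBasis.coe_mkOfOrthogonalEqBot]
  exact (b i.1 i.2).2

/-- A compact symmetric operator has a Hilbert basis of eigenvectors. -/
theorem exists_eigenbasis (T : H →L[ℝ] H) (hc : IsCompactOperator T)
    (hs : (T : H →ₗ[ℝ] H).IsSymmetric) :
    ∃ (ι : Type u) (e : HilbertBasis ι ℝ H) (l : ι → ℝ), ∀ i, T (e i) = l i • e i := by
  have hcomp : ∀ μ : ℝ, CompleteSpace (eigenspace (T : H →ₗ[ℝ] H) μ) := by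
    intro μ
    have h1 : IsClosed ((eigenspace (T : H →ₗ[ℝ] H) μ : Submodule ℝ H) : Set H) := by
      have h2 : ((eigenspace (T : H →ₗ[ℝ] H) μ : Submodule ℝ H) : Set H) =
          {x | T x = μ • x} := by
        ext x
        exact mem_eigenspace_iff
      rw [h2]
      exact isClosed_eq T.continuous (continuous_const_smul μ)
    exact h1.completeSpace_coe
  obtain ⟨ι, e, c, h⟩ := exists_sigma_basis (fun μ : ℝ => eigenspace (T : H →ₗ[ℝ] H) μ) hcomp
    hs.orthogonalFamily_eigenspaces
    (ContinuousLinearMap.orthogonalComplement_iSup_eigenspaces_eq_bot hc hs)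
  exact ⟨ι, e, c, fun i => mem_eigenspace_iff.1 (h i)⟩

omit [CompleteSpace H] in
/-- The eigenvalues of a compact operator in an orthonormal basis of eigenvectors tend to zero. -/
theorem finite_large (T : H →L[ℝ] H) (hc : IsCompactOperator T) {ι : Type*}
    (e : HilbertBasis ι ℝ H) (l : ι → ℝ) (he : ∀ i, T (e i) = l i • e i) {ε : ℝ} (hε : 0 < ε) :
    {i | ε ≤ l i}.Finite := by
  by_contra hcon
  have hinf : {i | ε ≤ l i}.Infinite := hcon
  obtain ⟨f, hf⟩ := hinf.exists_subset_card_eq 0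
  let a : ℕ ↪ {i | ε ≤ l i} := hinf.natEmbedding
  have hcl := hc.isCompact_closure_image_closedBall (M₁ := H) 1
  have hmem : ∀ n, T (e (a n)) ∈ closure (T '' Metric.closedBall 0 1) := fun n =>
    subset_closure ⟨_, by simp [(e.orthonormal.1 (a n)).le], rfl⟩
  obtain ⟨y, -, k, hk, hy⟩ := hcl.tendsto_subseq hmem
  have hC := hy.cauchySeq
  rw [Metric.cauchySeq_iff'] at hC
  obtain ⟨N, hN⟩ := hC ε hε
  have h1 := hN (N + 1) (by omega)
  have hne : (a (k (N + 1)) : ι) ≠ a (k N) := by
    intro h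
    have h2 := a.injective (Subtype.ext h)
    have h3 := hk.injective h2
    omega
  have h2 : dist (T (e (a (k (N + 1))))) (T (e (a (k N)))) ^ 2 =
      l (a (k (N + 1))) ^ 2 + l (a (k N)) ^ 2 := by
    rw [dist_eq_norm, he, he, @norm_sub_sq_real, norm_smul, norm_smul, e.orthonormal.1,
      e.orthonormal.1, inner_smul_left, inner_smul_right, e.orthonormal.2 hne]
    simp
  have h3 : ε ^ 2 ≤ l (a (k (N + 1))) ^ 2 := by
    have := (a (k (N + 1))).2
    exact pow_le_pow_left₀ hε.le this 2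
  have h4 : dist (T (e (a (k (N + 1))))) (T (e (a (k N)))) ^ 2 < ε ^ 2 :=
    pow_lt_pow_left₀ h1 dist_nonneg (by norm_num)
  nlinarith [sq_nonneg (l (a (k N)))]

/-- Multipliers in a Hilbert basis. -/
theorem exists_mult {ι : Type*} (e : HilbertBasis ι ℝ H) (m : ι → ℝ) {M : ℝ} (hM : 0 ≤ M)
    (f : H) (hm : ∀ i, inner ℝ (e i) f ≠ 0 → |m i| ≤ M) :
    ∃ g : H, (∀ i, inner ℝ (e i) g = m i * inner ℝ (e i) f) ∧ ‖g‖ ≤ M * ‖f‖ := by
  have hle : ∀ i, ‖m i * inner ℝ (e i) f‖ ≤ ‖M * inner ℝ (e i) f‖ := by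
    intro i
    by_cases h : inner ℝ (e i) f = 0
    · rw [h, mul_zero, mul_zero]
    · rw [norm_mul, norm_mul, Real.norm_eq_abs, Real.norm_eq_abs M, abs_of_nonneg hM]
      exact mul_le_mul_of_nonneg_right (hm i h) (norm_nonneg _)
  have hf : Memℓp (fun i => M * inner ℝ (e i) f) 2 := by
    have h2 : (fun i => M * inner ℝ (e i) f) = (e.repr (M • f) : ι → ℝ) := by
      funext i
      rw [HilbertBasis.repr_apply_apply, inner_smul_right]
    rw [h2]
    exact lp.memℓp _
  have hsum : Summable fun i => ‖M * inner ℝ (e i) f‖ ^ (2 : ℝ) := by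
    have := hf.summable (by norm_num)
    simpa using this
  have hg : Memℓp (fun i => m i * inner ℝ (e i) f) 2 := by
    refine memℓp_gen ?_
    simp only [ENNReal.toReal_ofNat]
    refine Summable.of_nonneg_of_le (fun i => by positivity) (fun i => ?_) hsum
    exact Real.rpow_le_rpow (norm_nonneg _) (hle i) (by norm_num)
  refine ⟨e.repr.symm ⟨_, hg⟩, fun i => ?_, ?_⟩
  · rw [← HilbertBasis.repr_apply_apply, LinearIsometryEquiv.apply_symm_apply]
  · rw [LinearIsometryEquiv.norm_map]
    have h3 : ‖M • f‖ = M * ‖f‖ := by rw [norm_smul, Real.norm_eq_abs, abs_of_nonneg hM]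
    rw [← h3, ← e.repr.norm_map (M • f)]
    refine lp.norm_mono (by norm_num) fun i => ?_
    rw [HilbertBasis.repr_apply_apply, inner_smul_right]
    exact hle i

end Vale.Agent.P071.NF
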