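import Vale.Agent.P071.H592.HeatDef
import Vale.Agent.P071.H592.Spec
import Mathlib.MeasureTheory.Function.L2Space
import Mathlib.Analysis.InnerProductSpace.PiL2

/-!
# The Hilbert space `H¹(Ω)` and the resolvent of the Neumann Laplacian
-/

open MeasureTheory Filter Topology
open scoped ContDiff

namespace Vale.Agent.P071.NF

/-- `L²(Ω)` -/
noncomputable abbrev L2 (Ω : Set ℂ) := Lp ℝ 2 (volume.restrict Ω)

/-- `L²(Ω)³` -/
noncomputable abbrev E3 (Ω : Set ℂ) := PiLp 2 (fun _ : Fin 3 => L2 Ω)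

variable {Ω : Set ℂ}

theorem inner_L2 (f g : L2 Ω) : inner ℝ f g = ∫ z in Ω, f z * g z := by
  rw [L2.inner_def]
  refine integral_congr_ae (Eventually.of_forall fun z => ?_)
  simp [mul_comm]

open Classical in
/-- the class of a square integrable function -/
noncomputable def tl (Ω : Set ℂ) (f : ℂ → ℝ) : L2 Ω :=
  if h : MemLp f 2 (volume.restrict Ω) then h.toLp f else 0

theorem tl_ae {f : ℂ → ℝ} (h : MemLp f 2 (volume.restrict Ω)) :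
    (tl Ω f : ℂ → ℝ) =ᵐ[volume.restrict Ω] f := by
  unfold tl
  rw [dif_pos h]
  exact h.coeFn_toLp

theorem inner_tl_left {f : ℂ → ℝ} (h : MemLp f 2 (volume.restrict Ω)) (g : L2 Ω) :
    inner ℝ (tl Ω f) g = ∫ z in Ω, f z * g z := by
  rw [inner_L2]
  refine integral_congr_ae ?_
  filter_upwards [tl_ae h] with z hz
  rw [hz]

theorem inner_tl_right {f : ℂ → ℝ} (h : MemLp f 2 (volume.restrict Ω)) (g : L2 Ω) :
    inner ℝ g (tl Ω f) = ∫ z in Ω, g z * f z := by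
  rw [inner_L2]
  refine integral_congr_ae ?_
  filter_upwards [tl_ae h] with z hz
  rw [hz]

theorem inner_tl {f g : ℂ → ℝ} (hf : MemLp f 2 (volume.restrict Ω))
    (hg : MemLp g 2 (volume.restrict Ω)) :
    inner ℝ (tl Ω f) (tl Ω g) = ∫ z in Ω, f z * g z := by
  rw [inner_tl_left hf]
  refine integral_congr_ae ?_
  filter_upwards [tl_ae hg] with z hz
  rw [hz]

theorem tl_coe (f : L2 Ω) : tl Ω f = f := by
  unfold tl
  rw [dif_pos (Lp.memLp f)]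
  exact Lp.toLp_coeFn f _

theorem tl_congr {f g : ℂ → ℝ} (h : f =ᵐ[volume.restrict Ω] g)
    (hf : MemLp f 2 (volume.restrict Ω)) : tl Ω f = tl Ω g := by
  have hg : MemLp g 2 (volume.restrict Ω) := hf.ae_eq h
  apply Lp.ext
  filter_upwards [tl_ae hf, tl_ae hg, h] with z h1 h2 h3
  rw [h1, h2, h3]

/-- a triple -/
noncomputable def mk3 (a b c : L2 Ω) : E3 Ω := WithLp.toLp 2 ![a, b, c]

@[simp] theorem mk3_0 (a b c : L2 Ω) : (mk3 a b c) 0 = a := rfl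
@[simp] theorem mk3_1 (a b c : L2 Ω) : (mk3 a b c) 1 = b := rfl
@[simp] theorem mk3_2 (a b c : L2 Ω) : (mk3 a b c) 2 = c := rfl

theorem inner3 (x y : E3 Ω) :
    inner ℝ x y = inner ℝ (x 0) (y 0) + inner ℝ (x 1) (y 1) + inner ℝ (x 2) (y 2) := by
  rw [PiLp.inner_apply, Fin.sum_univ_three]

/-- test functions of `Ω` -/
def Tst (Ω : Set ℂ) (φ : ℂ → ℝ) : Prop :=
  ContDiff ℝ ∞ φ ∧ HasCompactSupport φ ∧ tsupport φ ⊆ Ω

theorem Tst.memLp {φ : ℂ → ℝ} (h : Tst Ω φ) : MemLp φ 2 (volume.restrict Ω) :=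
  (h.1.continuous.memLp_of_hasCompactSupport h.2.1).restrict Ω

theorem Tst.dir {φ : ℂ → ℝ} (h : Tst Ω φ) (e : ℂ) : Tst Ω (fun z => fderiv ℝ φ z e) := by
  have h1 : tsupport (fun z => fderiv ℝ φ z e) ⊆ tsupport φ := by
    refine closure_minimal (fun z hz => ?_) (isClosed_tsupport φ)
    by_contra hcon
    apply hz
    have : fderiv ℝ φ z = 0 := by
      have h2 : φ =ᶠ[𝓝 z] 0 := notMem_tsupport_iff_eventuallyEq.1 hcon
      rw [h2.fderiv_eq]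
      simp
    show fderiv ℝ φ z e = 0
    rw [this]; rfl
  refine ⟨(h.1.fderiv_right (m := ∞) (by simp)).clm_apply contDiff_const,
    h.2.1.of_isClosed_subset (isClosed_tsupport _) h1, h1.trans h.2.2⟩

theorem Tst.px {φ : ℂ → ℝ} (h : Tst Ω φ) : Tst Ω (px φ) := h.dir 1

theorem Tst.py {φ : ℂ → ℝ} (h : Tst Ω φ) : Tst Ω (py φ) := h.dir Complex.I

/-- the annihilators of `H¹(Ω)` in `L²(Ω)³` -/
def Ann (Ω : Set ℂ) : Set (E3 Ω) :=
  {x | ∃ φ, Tst Ω φ ∧ (x = mk3 (tl Ω (px φ)) (tl Ω φ) 0 ∨ x = mk3 (tl Ω (py φ)) 0 (tl Ω φ))}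

/-- `H¹(Ω)` as a closed subspace of `L²(Ω)³` -/
noncomputable def W (Ω : Set ℂ) : Submodule ℝ (E3 Ω) := (Submodule.span ℝ (Ann Ω))ᗮ

instance : CompleteSpace (W Ω) := by
  unfold W
  infer_instance

theorem mem_W_iff (x : E3 Ω) : x ∈ W Ω ↔ ∀ s ∈ Ann Ω, inner ℝ s x = 0 := by
  unfold W
  rw [Submodule.mem_orthogonal]
  constructor
  · intro h s hs
    exact h s (Submodule.subset_span hs)
  · intro h u hu
    induction hu using Submodule.span_induction with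
    | mem y hy => exact h y hy
    | zero => exact inner_zero_left _
    | add y z _ _ h1 h2 => rw [inner_add_left, h1, h2, add_zero]
    | smul a y _ h1 => rw [inner_smul_left, h1, mul_zero]

theorem isH1_of_mem {x : E3 Ω} (hx : x ∈ W Ω) : IsH1 Ω (x 0) (x 1) (x 2) where
  v_mem := Lp.memLp _
  gx_mem := Lp.memLp _
  gy_mem := Lp.memLp _
  weak_x := by
    intro φ h1 h2 h3
    have hφ : Tst Ω φ := ⟨h1, h2, h3⟩
    have h := (mem_W_iff x).1 hx _ ⟨φ, hφ, Or.inl rfl⟩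
    rw [inner3, mk3_0, mk3_1, mk3_2, inner_zero_left, add_zero, inner_tl_left hφ.px.memLp,
      inner_tl_left hφ.memLp] at h
    have e1 : ∫ z in Ω, (x 0) z * px φ z = ∫ z in Ω, px φ z * (x 0) z := by
      simp_rw [mul_comm]
    have e2 : ∫ z in Ω, (x 1) z * φ z = ∫ z in Ω, φ z * (x 1) z := by
      simp_rw [mul_comm]
    rw [e1, e2]
    linarith
  weak_y := by
    intro φ h1 h2 h3
    have hφ : Tst Ω φ := ⟨h1, h2, h3⟩
    have h := (mem_W_iff x).1 hx _ ⟨φ, hφ, Or.inr rfl⟩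
    rw [inner3, mk3_0, mk3_1, mk3_2, inner_zero_left, add_zero, inner_tl_left hφ.py.memLp,
      inner_tl_left hφ.memLp] at h
    have e1 : ∫ z in Ω, (x 0) z * py φ z = ∫ z in Ω, py φ z * (x 0) z := by
      simp_rw [mul_comm]
    have e2 : ∫ z in Ω, (x 2) z * φ z = ∫ z in Ω, φ z * (x 2) z := by
      simp_rw [mul_comm]
    rw [e1, e2]
    linarith

theorem mem_of_isH1 {v gx gy : ℂ → ℝ} (h : IsH1 Ω v gx gy) :
    mk3 (tl Ω v) (tl Ω gx) (tl Ω gy) ∈ W Ω := by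
  rw [mem_W_iff]
  rintro s ⟨φ, hφ, rfl | rfl⟩
  · rw [inner3, mk3_0, mk3_1, mk3_2, mk3_0, mk3_1, mk3_2, inner_zero_left, add_zero,
      inner_tl hφ.px.memLp h.v_mem, inner_tl hφ.memLp h.gx_mem]
    have := h.weak_x φ hφ.1 hφ.2.1 hφ.2.2
    simp_rw [mul_comm] at this ⊢
    linarith
  · rw [inner3, mk3_0, mk3_1, mk3_2, mk3_0, mk3_1, mk3_2, inner_zero_left, add_zero,
      inner_tl hφ.py.memLp h.v_mem, inner_tl hφ.memLp h.gy_mem]
    have := h.weak_y φ hφ.1 hφ.2.1 hφ.2.2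
    simp_rw [mul_comm] at this ⊢
    linarith

/-- the embedding of `H¹(Ω)` in `L²(Ω)` -/
noncomputable def J (Ω : Set ℂ) : W Ω →L[ℝ] L2 Ω :=
  (PiLp.proj 2 (fun _ : Fin 3 => L2 Ω) 0 : E3 Ω →L[ℝ] L2 Ω).comp (W Ω).subtypeL

theorem J_apply (x : W Ω) : J Ω x = (x : E3 Ω) 0 := rfl

/-- `(1 - Δ)⁻¹`, with values in `H¹(Ω)` -/
noncomputable def R (Ω : Set ℂ) : L2 Ω →L[ℝ] W Ω := ContinuousLinearMap.adjoint (J Ω)

theorem inner_R (f : L2 Ω) (y : W Ω) : inner ℝ (R Ω f) y = inner ℝ f ((y : E3 Ω) 0) :=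
  ContinuousLinearMap.adjoint_inner_left (J Ω) y f

/-- `(1 - Δ)⁻¹` in `L²(Ω)` -/
noncomputable def T (Ω : Set ℂ) : L2 Ω →L[ℝ] L2 Ω := (J Ω).comp (R Ω)

theorem T_apply (f : L2 Ω) : T Ω f = (R Ω f : E3 Ω) 0 := rfl

theorem T_symm : (T Ω : L2 Ω →ₗ[ℝ] L2 Ω).IsSymmetric := by
  intro f g
  show inner ℝ (T Ω f) g = inner ℝ f (T Ω g)
  rw [T_apply, T_apply, ← inner_R f (R Ω g), real_inner_comm, ← inner_R g (R Ω f),
    real_inner_comm]

/-- the weak equation of the resolvent -/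
theorem weak_R (f : L2 Ω) (y : W Ω) :
    inner ℝ ((R Ω f : E3 Ω) 1) ((y : E3 Ω) 1) + inner ℝ ((R Ω f : E3 Ω) 2) ((y : E3 Ω) 2) =
      inner ℝ (f - T Ω f) ((y : E3 Ω) 0) := by
  have h := inner_R f y
  have h2 : inner ℝ (R Ω f) y = inner ℝ (R Ω f : E3 Ω) (y : E3 Ω) := rfl
  rw [h2, inner3] at h
  rw [inner_sub_left, T_apply]
  linarith

theorem norm_T_le (f : L2 Ω) : ‖T Ω f‖ ≤ ‖f‖ := by
  have h1 : ‖(R Ω f : E3 Ω) 0‖ ^ 2 ≤ inner ℝ (R Ω f : E3 Ω) (R Ω f : E3 Ω) := by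
    rw [inner3, real_inner_self_eq_norm_sq, real_inner_self_eq_norm_sq,
      real_inner_self_eq_norm_sq]
    nlinarith [sq_nonneg ‖(R Ω f : E3 Ω) 1‖, sq_nonneg ‖(R Ω f : E3 Ω) 2‖]
  have h2 : inner ℝ (R Ω f : E3 Ω) (R Ω f : E3 Ω) = inner ℝ f (T Ω f) := inner_R f (R Ω f)
  have h3 : inner ℝ f (T Ω f) ≤ ‖f‖ * ‖T Ω f‖ := real_inner_le_norm _ _
  rw [h2] at h1
  have h4 : ‖T Ω f‖ ^ 2 ≤ ‖f‖ * ‖T Ω f‖ := h1.trans h3
  by_cases h0 : ‖T Ω f‖ = 0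
  · rw [h0]; exact norm_nonneg _
  · have : 0 < ‖T Ω f‖ := lt_of_le_of_ne (norm_nonneg _) (Ne.symm h0)
    nlinarith

end Vale.Agent.P071.NF
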