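import Vale.Agent.P071.H969.Final
import Vale.Agent.P071.H592.Space
import Vale.Agent.P071.H592.HS

set_option linter.all false

/-!
# The interior value estimate for the resolvent
-/

open MeasureTheory Metric Filter Topology
open scoped ContDiff

namespace Vale.Agent.P071.NF

open Vale.Agent.P071.Lim Vale.Agent.P071.Lim.Mol Vale.Agent.P071.Reg.Int1

/-- `-Δu = g` weakly, `∇u = (gx, gy)` -/
def WEq (Ω : Set ℂ) (gx gy g : ℂ → ℝ) : Prop :=
  ∀ φ : ℂ → ℝ, ContDiff ℝ ∞ φ → HasCompactSupport φ → tsupport φ ⊆ Ω →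
    ∫ z in Ω, (gx z * px φ z + gy z * py φ z) = ∫ z in Ω, g z * φ z

/-- the Laplacian of the mollification -/
lemma lap_moll_gen {U : Set ℂ} (hU : IsOpen U) {u gx gy g : ℂ → ℝ}
    (hu : IsH1 U u gx gy) (hg : MemLp g 2 (volume.restrict U)) (hweak : WEq U gx gy g)
    (n : ℕ) {x : ℂ} (hx : closedBall x (1 / ((n : ℝ) + 1)) ⊆ U) :
    Lim.lap (moll n (U.indicator u)) x = -(moll n (U.indicator g) x) := by
  have hUm := hU.measurableSet
  have hl : LocallyIntegrable (U.indicator u) :=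
    ((memLp_indicator_iff_restrict hUm).2 hu.v_mem).locallyIntegrable (by norm_num)
  have hint : ∀ {g ψ : ℂ → ℝ}, MemLp g 2 (volume.restrict U) → ContDiff ℝ ∞ ψ →
      HasCompactSupport ψ → IntegrableOn (fun z => g z * ψ z) U := by
    intro g ψ hg hψ hc
    have h1 : MemLp ψ 2 (volume.restrict U) :=
      (hψ.continuous.memLp_of_hasCompactSupport hc).restrict U
    exact hg.integrable_mul h1
  have hweak2 : ∀ φ : ℂ → ℝ, ContDiff ℝ ∞ φ → HasCompactSupport φ → tsupport φ ⊆ U →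
      ∫ z in U, u z * Lim.lap φ z = -∫ z in U, g z * φ z := by
    intro φ hφ hc hs
    have Cx := RegA.px_contDiff hφ
    have Cy := RegA.py_contDiff hφ
    have Kx := RegA.px_cs hc
    have Ky := RegA.py_cs hc
    have sx := (RegA.px_tsupport φ).trans hs
    have sy := (RegA.py_tsupport φ).trans hs
    have h1 := hu.weak_x _ Cx Kx sx
    have h2 := hu.weak_y _ Cy Ky sy
    have h3 := hweak φ hφ hc hs
    rw [integral_add (hint hu.gx_mem Cx Kx) (hint hu.gy_mem Cy Ky)] at h3
    have h4 : ∫ z in U, u z * Lim.lap φ z =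
        (∫ z in U, u z * px (px φ) z) + ∫ z in U, u z * py (py φ) z := by
      rw [← integral_add (hint hu.v_mem (RegA.px_contDiff Cx) (RegA.px_cs Kx))
        (hint hu.v_mem (RegA.py_contDiff Cy) (RegA.py_cs Ky))]
      congr 1
      funext z
      unfold Lim.lap
      ring
    rw [h4, h1, h2]
    linarith only [h3]
  have h6 := RegA.cv_sub_test hweak2 (K := U) (ker_contDiff n) (ker_cs n) subset_rfl (z := x)
    (by
      intro t ht
      apply hx
      have h7 : tsupport (ker n) = closedBall 0 (1 / ((n : ℝ) + 1)) := (bump n).tsupport_normed_eq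
      rw [h7, mem_closedBall, dist_zero_right] at ht
      rw [mem_closedBall, dist_eq_norm, norm_sub_rev]
      exact ht)
  rw [moll_eq_cv, RegA.cv_lap hl (ker_contDiff n) (ker_cs n), h6, moll_eq_cv]

/-- mollification does not increase the `L²` norm -/
lemma moll_sq_le {Ω : Set ℂ} (ho : IsOpen Ω) {h : ℂ → ℝ} (hh : MemLp h 2 (volume.restrict Ω))
    (n : ℕ) (S : Set ℂ) :
    ∫ z in S, moll n (Ω.indicator h) z ^ 2 ≤ ∫ z in Ω, h z ^ 2 := by
  have hm : MemLp (Ω.indicator h) 2 volume := (memLp_indicator_iff_restrict ho.measurableSet).2 hh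
  have h1 := moll_memLp n hm
  have h2 : ∫ z in S, moll n (Ω.indicator h) z ^ 2 ≤ ∫ z, moll n (Ω.indicator h) z ^ 2 :=
    setIntegral_le_integral h1.integrable_sq (Eventually.of_forall fun z => sq_nonneg _)
  refine h2.trans ?_
  have h3 : ∫ z in Ω, h z ^ 2 = ∫ z, (Ω.indicator h z) ^ 2 := by
    rw [← integral_indicator ho.measurableSet]
    congr 1
    funext z
    by_cases hz : z ∈ Ω <;> simp [hz]
  rw [h3, int_sq_eq h1, int_sq_eq hm]
  have h4 := moll_eLpNorm_le n hm.1
  have h5 := ENNReal.toReal_mono hm.2.ne h4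
  exact pow_le_pow_left₀ ENNReal.toReal_nonneg h5 2

lemma moll_int {Ω : Set ℂ} (ho : IsOpen Ω) {h : ℂ → ℝ} (hh : MemLp h 2 (volume.restrict Ω))
    (n : ℕ) (S : Set ℂ) : IntegrableOn (fun z => moll n (Ω.indicator h) z ^ 2) S :=
  ((moll_memLp n ((memLp_indicator_iff_restrict ho.measurableSet).2 hh)).integrable_sq).integrableOn

/-- The value estimate for mollifications. -/
theorem val {Ω : Set ℂ} (ho : IsOpen Ω) {K : Set ℂ} (hK : IsCompact K) (hKΩ : K ⊆ Ω) :
    ∃ (C : ℝ) (N : ℕ), 0 ≤ C ∧ ∀ n : ℕ, N ≤ n → ∀ x ∈ K, ∀ u gx gy g : ℂ → ℝ,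
      IsH1 Ω u gx gy → MemLp g 2 (volume.restrict Ω) → WEq Ω gx gy g →
      moll n (Ω.indicator u) x ^ 2 ≤
        C * ((∫ z in Ω, u z ^ 2) + (∫ z in Ω, gx z ^ 2) + (∫ z in Ω, gy z ^ 2) +
          ∫ z in Ω, g z ^ 2) := by
  obtain ⟨δ, hδ, hδΩ⟩ := hK.exists_thickening_subset_open ho hKΩ
  obtain ⟨C, hC, hval⟩ := sq_le_of_ball (R := δ / 2) (by positivity)
  obtain ⟨N, hN⟩ := exists_nat_one_div_lt (show 0 < δ / 2 by positivity)
  refine ⟨C, N, hC.le, fun n hn x hx u gx gy g hu hg hweak => ?_⟩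
  have hn1 : 1 / ((n : ℝ) + 1) < δ / 2 := by
    refine lt_of_le_of_lt ?_ hN
    apply one_div_le_one_div_of_le (by positivity)
    have : (N : ℝ) ≤ n := by exact_mod_cast hn
    linarith
  have hsub : ∀ y ∈ ball x (δ / 2), closedBall y (1 / ((n : ℝ) + 1)) ⊆ Ω := by
    intro y hy z hz
    apply hδΩ
    rw [mem_thickening_iff]
    refine ⟨x, hx, ?_⟩
    rw [mem_ball] at hy
    rw [mem_closedBall] at hz
    calc dist z x ≤ dist z y + dist y x := dist_triangle _ _ _
      _ < δ := by linarith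
  have hum : MemLp (Ω.indicator u) 2 volume :=
    (memLp_indicator_iff_restrict ho.measurableSet).2 hu.v_mem
  have hl : LocallyIntegrable (Ω.indicator u) := hum.locallyIntegrable (by norm_num)
  have hsm : ContDiffOn ℝ 2 (moll n (Ω.indicator u)) (ball x (δ / 2)) :=
    (contDiff_infty.1 (moll_contDiff n hl) 2).contDiffOn
  have hpx : ∀ y ∈ ball x (δ / 2), px (moll n (Ω.indicator u)) y = moll n (Ω.indicator gx) y :=
    fun y hy => px_moll ho.measurableSet hu.v_mem 1 hu.weak_x n (hsub y hy)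
  have hpy : ∀ y ∈ ball x (δ / 2), py (moll n (Ω.indicator u)) y = moll n (Ω.indicator gy) y :=
    fun y hy => px_moll ho.measurableSet hu.v_mem Complex.I hu.weak_y n (hsub y hy)
  have hlap : ∀ y ∈ ball x (δ / 2), Lim.lap (moll n (Ω.indicator u)) y =
      -(moll n (Ω.indicator g) y) :=
    fun y hy => lap_moll_gen ho hu hg hweak n (hsub y hy)
  have heq : ∀ y ∈ ball x (δ / 2), moll n (Ω.indicator u) y ^ 2 +
      gsq (moll n (Ω.indicator u)) y + Lim.lap (moll n (Ω.indicator u)) y ^ 2 =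
      moll n (Ω.indicator u) y ^ 2 + (moll n (Ω.indicator gx) y ^ 2 +
        moll n (Ω.indicator gy) y ^ 2) + moll n (Ω.indicator g) y ^ 2 := by
    intro y hy
    unfold gsq
    rw [hpx y hy, hpy y hy, hlap y hy, neg_sq]
  have i0 := moll_int ho hu.v_mem n (ball x (δ / 2))
  have i1 := moll_int ho hu.gx_mem n (ball x (δ / 2))
  have i2 := moll_int ho hu.gy_mem n (ball x (δ / 2))
  have i3 := moll_int ho hg n (ball x (δ / 2))
  have hI : IntegrableOn (fun y => moll n (Ω.indicator u) y ^ 2 +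
      gsq (moll n (Ω.indicator u)) y + Lim.lap (moll n (Ω.indicator u)) y ^ 2) (ball x (δ / 2)) :=
    (((i0.add (i1.add i2)).add i3).congr_fun (fun y hy => (heq y hy).symm) measurableSet_ball)
  refine (hval x _ hsm hI).trans (mul_le_mul_of_nonneg_left ?_ hC.le)
  have h12 : IntegrableOn (fun y => moll n (Ω.indicator gx) y ^ 2 +
      moll n (Ω.indicator gy) y ^ 2) (ball x (δ / 2)) := i1.add i2
  have h012 : IntegrableOn (fun y => moll n (Ω.indicator u) y ^ 2 +
      (moll n (Ω.indicator gx) y ^ 2 + moll n (Ω.indicator gy) y ^ 2)) (ball x (δ / 2)) :=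
    i0.add h12
  rw [setIntegral_congr_fun measurableSet_ball heq, integral_add h012 i3,
    integral_add i0 h12, integral_add i1 i2]
  have e0 := moll_sq_le ho hu.v_mem n (ball x (δ / 2))
  have e1 := moll_sq_le ho hu.gx_mem n (ball x (δ / 2))
  have e2 := moll_sq_le ho hu.gy_mem n (ball x (δ / 2))
  have e3 := moll_sq_le ho hg n (ball x (δ / 2))
  linarith

end Vale.Agent.P071.NF
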